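import Vale.Agent.P092.H584.TauG
import Vale.Agent.P092.H515.TauG
import Vale.Agent.P092.H776.NG6

/-!
P092, TEAM N (helper584), products, block [P-TAU] (T3), in the letters of the picture.

* `msE_eq`: the mass of `H805.RowN` is `‖mS₁ S (π u Ω)‖²`.
* `tau_pic`: tightness of the fibres of `τ` in the picture implies that `τ` is a bijection which
  preserves the ranks.
* `tau_out`: from the tightness of the wall elements (T1), everything.
-/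

set_option linter.all false

open scoped InnerProductSpace ENNReal
open Filter Topology Matrix ContinuousLinearMap MeasureTheory

namespace Vale.Agent.P092.H584.Tau

open Vale.Agent.P092.H200 Vale.Agent.P092.H761
open Vale.Agent.P092.H538 (ind ind_pos ind_neg ind_nonneg)
open Vale.Agent.P092.H515
open Vale.Agent.P092.H933 (LocK)
open Vale.Agent.P092.H701 (HChain tor)
open Vale.Agent.P092.RC (GG PG YY KK pic lam₁ lam₂ XX Om Pic VR arep_VR VR_one)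
open Vale.Agent.P092.SR Vale.Agent.P092.H160
open Vale.Agent.P092.H261 (PingT gchain_of_hchain)
open Vale.Agent.P092.SN (PH nm bw)
open Vale.Agent.P092.SD (Ms)

/-! ### The mass -/

theorem uc_norm {K K' : Type} [NormedAddCommGroup K] [InnerProductSpace ℂ K] [CompleteSpace K]
    [NormedAddCommGroup K'] [InnerProductSpace ℂ K'] [CompleteSpace K'] (W : K ≃ₗᵢ[ℂ] K')
    (A B : K →L[ℂ] K) (ξ : K) : ‖H142.uc W A (H142.uc W B (W ξ))‖ = ‖A (B ξ)‖ := by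
  rw [H142.uc_W, H142.uc_W, LinearIsometryEquiv.norm_map]

section mass

variable {E : Type} [Group E] [TopologicalSpace E] [IsTopologicalGroup E] [LocallyCompactSpace E]
  [SecondCountableTopology E] [T2Space E] [MeasurableSpace E] [BorelSpace E]
  {Γ : Subgroup E} [DiscreteTopology Γ] [Countable Γ] [MeasurableSpace (E ⧸ Γ)]
  [BorelSpace (E ⧸ Γ)] {ν : Measure (E ⧸ Γ)} [IsProbabilityMeasure ν]
  (hν : ∀ g : E, ν.map (fun x => g • x) = ν)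
  {Λ : Type} [Group Λ] [Countable Λ] {α : Γ →* (Ell2 Λ →L[ℂ] Ell2 Λ)} (hα : Frame α)

/-- the mass of `H805.RowN` in the letters of the picture -/
theorem msE_eq (S : Set Γ) (u : E) :
    H805.RowN.msE hν hα u S = ‖H103.mS₁ ν hα S (pic hν hα u (Om ν Λ))‖ ^ 2 := by
  have h1 : H805.RowN.msE hν hα u S = ∑ i : Unit, ‖H776.NW.PF (H85.cdat ν hν) (Q := Γ) Unit S
      (H790.Ri (H85.cdat ν hν) (VR hα) u ((H790.baseL (H85.cdat ν hν).μ (Γ × Γ) Unit).ep i))‖ ^ 2 := by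
    unfold H805.RowN.msE H805.Row.msR
    exact H776.NW.mass_PF (H85.cdat ν hν) S u
  rw [h1, Fintype.sum_unique]
  rw [← H805.Row.st_mpE, ← H805.Row.uc_pi hν hα u, ← H805.Row.JE_Om hα ()]
  congr 1
  exact (uc_norm (H805.Row.JE ν hα) ((H538.fst (H790.baseL ν (Γ × Γ) Unit)).mp
    (H538.ind fun g => g ∈ S)) (H790.Ri (H85.cdat ν hν) (VR hα) u) (H790.ept ν ())).symm

/-- the mass functions of the picture -/
noncomputable def msF (hν : ∀ g : E, ν.map (fun x => g • x) = ν) (hα : Frame α) :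
    E → (Γ → ℝ) → ℝ := fun u F =>
  H132.massX (H538.fst (H790.baseL (H85.cdat ν hν).μ (Γ × Γ) Unit))
    (H790.Ri (H85.cdat ν hν) (VR hα)) u F

theorem msF_ind (S : Set Γ) (u : E) : msF hν hα u (ind fun γ => γ ∈ S) =
    ‖H103.mS₁ ν hα S (pic hν hα u (Om ν Λ))‖ ^ 2 := msE_eq hν hα S u

/-- the rank engine -/
theorem sharpE [DecidableEq Γ] : ∃ t : ℝ, SharpData t (msF hν hα)
    (fun K : Set E => IsCompact K) (PingT E) :=
  ⟨_, H761.sharpCoef Γ ν hν (arep_VR hα) (H805.RowN.cov_VR hα)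
    (fun A q => H805.RowN.cov_lx hα A q)⟩

end mass

/-! ### Abstract picture -/

section pict

variable {I : Type} [Fintype I] [DecidableEq I] {k k' : I → Type}
  [∀ i, NontriviallyNormedField (k i)] [∀ i, ProperSpace (k i)]
  [∀ i, NontriviallyNormedField (k' i)] [∀ i, ProperSpace (k' i)] {N : I → ℕ}
  {E : Type} [Group E] [TopologicalSpace E] [MeasurableSpace E] [BorelSpace E]
  {Γ K : Type} [Group Γ] [NormedAddCommGroup K] [InnerProductSpace ℂ K] [CompleteSpace K]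
  {π : E →* (K →L[ℂ] K)} {Ω : K} {m : Set Γ → (K →L[ℂ] K)} {mass : E → (Γ → ℝ) → ℝ}

/-- **T3 in the picture.** -/
theorem tau_pic (hd : ∀ _ : DecidableEq Γ, ∃ t : ℝ,
      SharpData t mass (fun K : Set E => IsCompact K) (PingT E))
    (hm : ∀ (u : E) (S : Set Γ), mass u (ind fun γ => γ ∈ S) = ‖m S (π u Ω)‖ ^ 2)
    (hk' : ∀ j, LocK (k' j)) (hN : ∀ i, 0 < N i) (ι : ∀ i, GG (k i) (N i) →* E)
    (a : ∀ i, E →* PG (k i) (N i + 1)) (hι : ∀ i, Continuous (ι i)) (ha : ∀ i, Continuous (a i))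
    (hcomp : ∀ i g (x : YY (k i) (N i)), a i (ι i g) • x = g • x)
    (hcomm : ∀ i j, i ≠ j → ∀ g h, Commute (ι i g) (ι j h))
    (q : ∀ j, Γ → GG (k' j) (N j)) (hq : ∀ j, PH (q j))
    (disc : ∀ C : ℝ, {γ : Γ | ∀ j, nm (q j γ) ≤ C}.Finite) {τ : I → I}
    (ht : ∀ j, ∀ ε : ℝ, 0 < ε → ∃ r : ℝ,
      ∀ u ∈ Subgroup.closure (⋃ i ∈ {i | τ i = j}, Set.range (ι i)),
        ‖m {γ | ∃ j', j' ≠ j ∧ r < nm (q j' γ)} (π u Ω)‖ ≤ ε) :
    Function.Bijective τ ∧ ∀ i, N (τ i) = N i := by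
  classical
  obtain ⟨t, hd⟩ := hd (Classical.decEq Γ)
  refine tau_glue hd hk' hN ι a hι ha hcomp hcomm q hq disc fun j ε hε => ?_
  obtain ⟨r, hr⟩ := ht j (min ε 1) (lt_min hε zero_lt_one)
  refine ⟨r, fun u hu => ?_⟩
  have h1 := hr u hu
  have h2 := hm u {γ | ∃ j', j' ≠ j ∧ r < nm (q j' γ)}
  have h3 : mass u (ind fun γ => ∃ j', j' ≠ j ∧ r < nm (q j' γ)) =
      ‖m {γ | ∃ j', j' ≠ j ∧ r < nm (q j' γ)} (π u Ω)‖ ^ 2 := h2
  rw [h3]
  have h4 : ‖m {γ | ∃ j', j' ≠ j ∧ r < nm (q j' γ)} (π u Ω)‖ ^ 2 ≤ (min ε 1) ^ 2 :=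
    pow_le_pow_left₀ (norm_nonneg _) h1 2
  have h5 : (min ε 1) ^ 2 ≤ min ε 1 := by
    have h6 : 0 < min ε 1 := lt_min hε zero_lt_one
    have h7 : min ε 1 ≤ 1 := min_le_right _ _
    nlinarith
  exact h4.trans (h5.trans (min_le_left _ _))

end pict

/-! ### One leg -/

section leg

variable {I : Type} [Fintype I] [DecidableEq I] {k k' : I → Type}
  [∀ i, NontriviallyNormedField (k i)] [∀ i, ProperSpace (k i)]
  [∀ i, NontriviallyNormedField (k' i)] [∀ i, ProperSpace (k' i)] {N : I → ℕ}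
  {E : Type} [Group E] [TopologicalSpace E] [IsTopologicalGroup E] [MeasurableSpace E]
  [BorelSpace E]
  {Γ K : Type} [Group Γ] [Countable Γ] [NormedAddCommGroup K] [InnerProductSpace ℂ K]
  [CompleteSpace K] {π : E →* (K →L[ℂ] K)} {lam : Γ →* (K →L[ℂ] K)} {W : Set (K →L[ℂ] K)}
  {Ω : K} {m : Set Γ → (K →L[ℂ] K)} {mass : E → (Γ → ℝ) → ℝ}

/-- **[P-TAU], abstract**: if the powers of the wall element of each source factor are tight off
some coordinate of the target (T1), then there is a rank preserving bijection `τ` such that this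
coordinate is `τ i`, and the whole factor `i` is tight off the coordinate `τ i`. -/
theorem tau_out_abs (hd : ∀ _ : DecidableEq Γ, ∃ t : ℝ,
      SharpData t mass (fun K : Set E => IsCompact K) (PingT E))
    (hm : ∀ (u : E) (S : Set Γ), mass u (ind fun γ => γ ∈ S) = ‖m S (π u Ω)‖ ^ 2)
    (hP : Pic π lam W Ω) (hM : Ms lam W Ω m)
    (hk' : ∀ j, LocK (k' j)) (hN : ∀ i, 0 < N i) {ι : ∀ i, GG (k i) (N i) →* E}
    {a : ∀ i, E →* PG (k i) (N i + 1)} (hι : ∀ i, Continuous (ι i)) (ha : ∀ i, Continuous (a i))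
    (hcomp : ∀ i g (x : YY (k i) (N i)), a i (ι i g) • x = g • x)
    (hcomm : ∀ i j, i ≠ j → ∀ g h, Commute (ι i g) (ι j h))
    {q : ∀ j, Γ → GG (k' j) (N j)} (hq : ∀ j, PH (q j))
    (disc : ∀ C : ℝ, {γ : Γ | ∀ j, nm (q j γ) ≤ C}.Finite) {w : ∀ i, (k i)ˣ}
    (hw : ∀ i, H515.Tau.KW (N i) (w i))
    (h1 : ∀ i, ∃ j, ∀ (ξ : K) (ε : ℝ), 0 < ε → ∃ r : ℝ, ∀ v ∈ Subgroup.zpowers (ι i (bw (w i))),
      ‖m {γ | ∃ j', j' ≠ j ∧ r < nm (q j' γ)} (π v ξ)‖ ≤ ε) :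
    ∃ τ : I → I, Function.Bijective τ ∧ (∀ i, N (τ i) = N i) ∧
      (∀ i (ξ : K) (ε : ℝ), 0 < ε → ∃ r : ℝ, ∀ v ∈ Subgroup.zpowers (ι i (bw (w i))),
        ‖m {γ | ∃ j', j' ≠ τ i ∧ r < nm (q j' γ)} (π v ξ)‖ ≤ ε) ∧
      ∀ i (ε : ℝ), 0 < ε → ∃ r : ℝ, ∀ g : GG (k i) (N i),
        ‖m {γ | ∃ j', j' ≠ τ i ∧ r < nm (q j' γ)} (π (ι i g) Ω)‖ ≤ ε := by
  choose τ hτ using h1
  have h2 := fun j => H515.Tau.tight_fib hP hM hq hw hι hcomm (τ := τ) (fun i ε hε => hτ i Ω ε hε) j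
  obtain ⟨h3, h4⟩ := tau_pic hd hm hk' hN ι a hι ha hcomp hcomm q hq disc h2
  exact ⟨τ, h3, h4, hτ, fun i => H515.Tau.tight_fac hP hM hq (hw i) (hι i) fun ε hε => hτ i Ω ε hε⟩

end leg

/-! ### The concrete picture, first leg -/

section con

variable {I : Type} [Fintype I] [DecidableEq I] {k k' : I → Type}
  [∀ i, NontriviallyNormedField (k i)] [∀ i, ProperSpace (k i)]
  [∀ i, NontriviallyNormedField (k' i)] [∀ i, ProperSpace (k' i)] {N : I → ℕ}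
  {E : Type} [Group E] [TopologicalSpace E] [IsTopologicalGroup E] [LocallyCompactSpace E]
  [SecondCountableTopology E] [T2Space E] [NoncompactSpace E] [MeasurableSpace E] [BorelSpace E]
  {Γ : Subgroup E} [DiscreteTopology Γ] [Countable Γ] [MeasurableSpace (E ⧸ Γ)]
  [BorelSpace (E ⧸ Γ)] {ν : Measure (E ⧸ Γ)} [IsProbabilityMeasure ν]
  (hν : ∀ g : E, ν.map (fun x => g • x) = ν)
  {Λ : Type} [Group Λ] [Countable Λ]
  (hΛ : ∀ g : Λ, g ≠ 1 → Set.Infinite {y : Λ | ∃ h, y = h * g * h⁻¹})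
  {α : Γ →* (Ell2 Λ →L[ℂ] Ell2 Λ)} (hα : Frame α)

include hΛ in
/-- **[P-TAU]** for the first leg of the concrete picture. -/
theorem tau_out (hk' : ∀ j, LocK (k' j)) (hN : ∀ i, 0 < N i) {ι : ∀ i, GG (k i) (N i) →* E}
    {a : ∀ i, E →* PG (k i) (N i + 1)} (hι : ∀ i, Continuous (ι i)) (ha : ∀ i, Continuous (a i))
    (hcomp : ∀ i g (x : YY (k i) (N i)), a i (ι i g) • x = g • x)
    (hcomm : ∀ i j, i ≠ j → ∀ g h, Commute (ι i g) (ι j h))
    {q : ∀ j, Γ → GG (k' j) (N j)} (hq : ∀ j, PH (q j))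
    (disc : ∀ C : ℝ, {γ : Γ | ∀ j, nm (q j γ) ≤ C}.Finite) {w : ∀ i, (k i)ˣ}
    (hw : ∀ i, H515.Tau.KW (N i) (w i))
    (h1 : ∀ i, ∃ j, ∀ (ξ : KK ν Λ) (ε : ℝ), 0 < ε → ∃ r : ℝ,
      ∀ v ∈ Subgroup.zpowers (ι i (bw (w i))),
        ‖H103.mS₁ ν hα {γ | ∃ j', j' ≠ j ∧ r < nm (q j' γ)} (pic hν hα v ξ)‖ ≤ ε) :
    ∃ τ : I → I, Function.Bijective τ ∧ (∀ i, N (τ i) = N i) ∧
      (∀ i (ξ : KK ν Λ) (ε : ℝ), 0 < ε → ∃ r : ℝ, ∀ v ∈ Subgroup.zpowers (ι i (bw (w i))),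
        ‖H103.mS₁ ν hα {γ | ∃ j', j' ≠ τ i ∧ r < nm (q j' γ)} (pic hν hα v ξ)‖ ≤ ε) ∧
      ∀ i (ε : ℝ), 0 < ε → ∃ r : ℝ, ∀ g : GG (k i) (N i),
        ‖H103.mS₁ ν hα {γ | ∃ j', j' ≠ τ i ∧ r < nm (q j' γ)}
          (pic hν hα (ι i g) (Om ν Λ))‖ ≤ ε :=
  tau_out_abs (fun _ => sharpE hν hα) (fun u S => msF_ind hν hα S u)
    (H805.RowN.picE hν hα hΛ) (H103.ms₁ hα) hk' hN hι ha hcomp hcomm hq disc hw h1

end con

end Vale.Agent.P092.H584.Tau
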