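import Vale.Agent.P092.H584.Cast
import Vale.Agent.P092.H337.NGg
import Vale.Agent.P092.H387.Pl1

/-!
P092, TEAM N (helper584), products: dualisation of some coordinates: `duG t q i = ct ∘ q i` for
`t i = true`, `q i` otherwise. PH, joint properness, joint injectivity, comparison of the sets `Z`.
-/

set_option linter.all false

open scoped InnerProductSpace ENNReal LinearAlgebra.Projectivization
open Filter Topology

namespace Vale.Agent.P092.H584.Cast

open Vale.Agent.P092.RC (GG PG YY y0 ct)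
open Vale.Agent.P092.SN
open Vale.Agent.P092.H35 (sp)
open Vale.Agent.P092.H337.NG (ph_ct nm_ct ct_ct nm_le_inv)
open Vale.Agent.P092.H644.PGr (tauP tauP_tauP)

section one

variable {k : Type} [NontriviallyNormedField k] {N : ℕ}

/-- `ct` for `t = true` -/
def du (t : Bool) (g : GG k N) : GG k N := if t then ct g else g

theorem du_du (t : Bool) (g : GG k N) : du t (du t g) = g := by
  cases t
  · rfl
  · exact ct_ct g

/-- the comparison constant -/
noncomputable def cb (N : ℕ) (C : ℝ) : ℝ := max C ((N + 1).factorial * |C| ^ N)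

theorem le_cb (N : ℕ) (C : ℝ) : C ≤ cb N C := le_max_left _ _

theorem nm_ct_le (g : GG k N) : nm (ct g) ≤ (N + 1).factorial * nm g ^ N := by
  have h := nm_le_inv (k := k) (N := N) g⁻¹
  rw [inv_inv] at h
  rwa [nm_ct]

theorem nm_du_le (t : Bool) (g : GG k N) {C : ℝ} (h : nm g ≤ C) : nm (du t g) ≤ cb N C := by
  cases t
  · exact h.trans (le_cb N C)
  · refine (nm_ct_le g).trans (le_trans ?_ (le_max_right _ _))
    have h0 : 0 ≤ nm g := norm_nonneg _
    have h1 : nm g ^ N ≤ |C| ^ N := pow_le_pow_left₀ h0 (h.trans (le_abs_self C)) N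
    exact mul_le_mul_of_nonneg_left h1 (Nat.cast_nonneg _)

theorem nm_of_du (t : Bool) (g : GG k N) {C : ℝ} (h : nm (du t g) ≤ C) : nm g ≤ cb N C := by
  have := nm_du_le t _ h
  rwa [du_du] at this

theorem ph_du {Γ : Type} [Group Γ] (t : Bool) {q : Γ → GG k N} (h : PH q) :
    PH fun γ => du t (q γ) := by
  cases t
  · exact h
  · exact ph_ct h

theorem sp_ct (g : GG k N) : sp k (N + 1) (ct g) = tauP k (N + 1) (sp k (N + 1) g) :=
  (congrArg (fun f : GG k N →* PG k (N + 1) => f g)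
    (Vale.Agent.P092.H387.Ad.tauP_comp_sp (k := k) (N := N))).symm

theorem sp_du_iff (t : Bool) (g : GG k N) : sp k (N + 1) (du t g) = 1 ↔ sp k (N + 1) g = 1 := by
  cases t
  · exact Iff.rfl
  · change sp k (N + 1) (ct g) = 1 ↔ _
    rw [sp_ct]
    constructor
    · intro h
      rw [← tauP_tauP (sp k (N + 1) g), h, map_one]
    · intro h
      rw [h, map_one]

end one

section fam

variable {k : Type} [NontriviallyNormedField k] {I : Type} {n : I → ℕ} {Γ : Type} [Group Γ]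

/-- the family with some coordinates dualised -/
def duG (t : I → Bool) (q : ∀ i, Γ → GG k (n i)) : ∀ i, Γ → GG k (n i) :=
  fun i γ => du (t i) (q i γ)

theorem duG_ph {t : I → Bool} {q : ∀ i, Γ → GG k (n i)} (h : ∀ i, PH (q i)) (i : I) :
    PH (duG t q i) := ph_du (t i) (h i)

theorem duG_inj {t : I → Bool} {q : ∀ i, Γ → GG k (n i)}
    (h : ∀ γ, (∀ i, sp k (n i + 1) (q i γ) = 1) → γ = 1) (γ : Γ)
    (hγ : ∀ i, sp k (n i + 1) (duG t q i γ) = 1) : γ = 1 :=
  h γ fun i => (sp_du_iff (t i) _).1 (hγ i)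

/-- one constant for a finite family -/
noncomputable def cbs [Fintype I] (n : I → ℕ) (C : ℝ) : ℝ := |C| + ∑ i, |cb (n i) C|

theorem cb_le_cbs [Fintype I] (i : I) (C : ℝ) : cb (n i) C ≤ cbs n C := by
  have h1 : |cb (n i) C| ≤ ∑ i, |cb (n i) C| :=
    Finset.single_le_sum (f := fun i => |cb (n i) C|) (fun _ _ => abs_nonneg _)
      (Finset.mem_univ i)
  have h2 := abs_nonneg C
  have h3 := le_abs_self (cb (n i) C)
  unfold cbs
  linarith

theorem duG_fin [Fintype I] {t : I → Bool} {q : ∀ i, Γ → GG k (n i)}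
    (h : ∀ C : ℝ, {γ | ∀ i, nm (q i γ) ≤ C}.Finite) (C : ℝ) :
    {γ | ∀ i, nm (duG t q i γ) ≤ C}.Finite :=
  (h (cbs n C)).subset fun γ hγ i => (nm_of_du (t i) _ (hγ i)).trans (cb_le_cbs i C)

/-- the sets `Z` are comparable -/
theorem duG_Z [Fintype I] (t : I → Bool) (q : ∀ i, Γ → GG k (n i)) (j : I) (R : ℝ) :
    {γ | ∀ i, i ≠ j → nm (duG t q i γ) ≤ R} ⊆ {γ | ∀ i, i ≠ j → nm (q i γ) ≤ cbs n R} :=
  fun γ hγ i hi => (nm_of_du (t i) _ (hγ i hi)).trans (cb_le_cbs i R)

theorem duG_Z' [Fintype I] (t : I → Bool) (q : ∀ i, Γ → GG k (n i)) (j : I) (R : ℝ) :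
    {γ | ∀ i, i ≠ j → nm (q i γ) ≤ R} ⊆ {γ | ∀ i, i ≠ j → nm (duG t q i γ) ≤ cbs n R} :=
  fun γ hγ i hi => (nm_du_le (t i) _ (hγ i hi)).trans (cb_le_cbs i R)

end fam

end Vale.Agent.P092.H584.Cast
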