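import Vale.Agent.P092.H596.N.Emz
import Vale.Agent.P092.H890.PnMul
import Vale.Agent.P092.H644.PGr
import Vale.Agent.P092.H933.LocF

/-!
P092, TEAM N (helper584), products, block [P-CROSS] (X1): the calculi of another factor are
further letters of the word lemma. `E'` is any calculus over the projective space of another
factor (any local field `k'`, any dimension) which commutes with `π ∘ ι` and `W` and is covariant
for a coordinate `q'` which is bounded on every `Z R`. Then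

  `Ec c u * E' f * F M h = 0`   (`c ∈ M`, `u`, `h` not incident).
-/

set_option linter.all false

open scoped InnerProductSpace ENNReal LinearAlgebra.Projectivization Matrix
open Filter Topology ContinuousLinearMap MeasureTheory TopologicalSpace

namespace Vale.Agent.P092.H584.X

open Vale.Agent.P092.SD (Ms UC)
open Vale.Agent.P092.RC (Cm TRN Moore GG PG YY y0 ct)
open Vale.Agent.P092.SN
open Vale.Agent.P092.H820 (pj pj_surj pj_eq)
open Vale.Agent.P092.H890 (Mult Ad Rel NK ev ev_ne)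
open Vale.Agent.P092.H596.N (emz cap_op_u exists_room act_apply)
open Vale.Agent.P092.H644.Gr3 (p1 p1_inj)
open Vale.Agent.P092.H644.PGr (p1_smul_gr)

section geo

variable {k : Type} [NontriviallyNormedField k] {N : ℕ}

/-- the action on points, in coordinates -/
theorem smul_pj (g : GG k N) (v : {v : Fin (N + 1) → k // v ≠ 0}) :
    ∃ hv : g.1 *ᵥ v.1 ≠ 0, g • pj k (Fin (N + 1)) v = pj k (Fin (N + 1)) ⟨g.1 *ᵥ v.1, hv⟩ :=
  ⟨(smul_ne_zero_iff_ne g).2 v.2, rfl⟩

/-- matrices which act by a scalar on `v` fix `[v]` -/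
theorem fix_pj (g : GG k N) (v : {v : Fin (N + 1) → k // v ≠ 0}) {c : kˣ}
    (h : g.1 *ᵥ v.1 = (c : k) • v.1) : g • pj k (Fin (N + 1)) v = pj k (Fin (N + 1)) v := by
  obtain ⟨hv, e⟩ := smul_pj g v
  rw [e, pj_eq]
  exact ⟨c, h.symm⟩

theorem ct_coe (g : GG k N) : (ct g).1 = (g⁻¹).1ᵀ := rfl

/-- the hyperplanes through `y0` -/
theorem inc_y0 (φ : {v : Fin (N + 1) → k // v ≠ 0}) :
    inc y0 (pj k (Fin (N + 1)) φ) ↔ φ.1 0 = 0 := by
  have e : (y0 : YY k N) = pj k (Fin (N + 1)) ⟨Pi.single 0 1, by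
    intro h
    have := congrFun h 0
    simp at this⟩ := rfl
  rw [e]
  change (Pi.single 0 1 : Fin (N + 1) → k) ⬝ᵥ φ.1 = 0 ↔ _
  rw [single_one_dotProduct]

/-- `bw w` fixes the hyperplanes through `y0` -/
theorem ct_bw_fix (w : kˣ) {M : YY k N} (h : inc y0 M) : ct (bw w : GG k N) • M = M := by
  obtain ⟨φ, rfl⟩ := pj_surj M
  rw [inc_y0] at h
  have key : (bw w : GG k N).1 *ᵥ φ.1 = (w : k) • φ.1 := by
    funext i
    change (Matrix.diagonal _ *ᵥ φ.1) i = _
    rw [Matrix.mulVec_diagonal]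
    by_cases hi : i = 0
    · subst hi
      rw [Pi.smul_apply, h]
      simp
    · rw [if_neg hi]
      rfl
  -- the transpose of the inverse
  have key2 : (ct (bw w : GG k N)).1 *ᵥ φ.1 = ((w⁻¹ : kˣ) : k) • φ.1 := by
    have h1 : (bw w : GG k N).1ᵀ = (bw w : GG k N).1 := Matrix.diagonal_transpose _
    have h2 : (ct (bw w : GG k N)).1 *ᵥ ((bw w : GG k N).1 *ᵥ φ.1) = φ.1 := by
      rw [Matrix.mulVec_mulVec, ct_coe]
      have h3 : ((bw w : GG k N)⁻¹).1ᵀ * (bw w : GG k N).1 = 1 := by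
        calc ((bw w : GG k N)⁻¹).1ᵀ * (bw w : GG k N).1
            = ((bw w : GG k N)⁻¹).1ᵀ * (bw w : GG k N).1ᵀ := by rw [h1]
          _ = ((bw w : GG k N).1 * ((bw w : GG k N)⁻¹).1)ᵀ := by rw [Matrix.transpose_mul]
          _ = 1 := by
              rw [← Matrix.SpecialLinearGroup.coe_mul, mul_inv_cancel,
                Matrix.SpecialLinearGroup.coe_one, Matrix.transpose_one]
      rw [h3, Matrix.one_mulVec]
    rw [key, Matrix.mulVec_smul] at h2
    calc (ct (bw w : GG k N)).1 *ᵥ φ.1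
        = ((w⁻¹ : kˣ) : k) • ((w : k) • ((ct (bw w : GG k N)).1 *ᵥ φ.1)) := by
          rw [smul_smul, ← Units.val_mul, inv_mul_cancel, Units.val_one, one_smul]
      _ = _ := by rw [h2]
  exact fix_pj _ _ key2

/-- `1 + s E_0j` fixes the hyperplanes through `y0` -/
theorem ct_un_fix {j : Fin (N + 1)} (hj : (0 : Fin (N + 1)) ≠ j) (s : k) {M : YY k N}
    (h : inc y0 M) : ct (un hj s) • M = M := by
  obtain ⟨φ, rfl⟩ := pj_surj M
  rw [inc_y0] at h
  have h0 : (un hj s).1ᵀ *ᵥ φ.1 = φ.1 := by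
    funext i
    unfold un
    rw [Matrix.SpecialLinearGroup.transvection_coe, Matrix.transpose_add, Matrix.transpose_one,
      Matrix.add_mulVec, Matrix.one_mulVec, Matrix.transpose_single, Pi.add_apply,
      Matrix.single_mulVec]
    simp [h]
  have h2 : (ct (un hj s)).1 *ᵥ φ.1 = ((1 : kˣ) : k) • φ.1 := by
    rw [Units.val_one, one_smul]
    calc (ct (un hj s)).1 *ᵥ φ.1 = (ct (un hj s)).1 *ᵥ ((un hj s).1ᵀ *ᵥ φ.1) := by rw [h0]
      _ = φ.1 := by
        rw [Matrix.mulVec_mulVec, ct_coe, ← Matrix.transpose_mul,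
          ← Matrix.SpecialLinearGroup.coe_mul, mul_inv_cancel,
          Matrix.SpecialLinearGroup.coe_one, Matrix.transpose_one, Matrix.one_mulVec]
  exact fix_pj _ _ h2

/-- transitivity on points -/
theorem exists_y0 (hN : 1 ≤ N) (c : YY k N) : ∃ g : GG k N, g • y0 = c := by
  haveI : Fact (1 < Fintype.card (Fin (N + 1))) := ⟨by
    rw [Fintype.card_fin]
    omega⟩
  obtain ⟨g, hg⟩ := MulAction.exists_smul_eq (GG k N) (p1 (y0 : YY k N)) (p1 c)
  refine ⟨g, p1_inj ?_⟩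
  rw [← hg, p1_smul_gr]

end geo

section bdd

variable {k : Type} [NontriviallyNormedField k] [ProperSpace k] {N : ℕ}

/-- bounded subsets of `SL_(N+1)(k)`: `(E' (f ∘ g))` is a multiplier -/
theorem mult_bdd {f : CY k N} (hf : Ad f) (C : ℝ) :
    ∃ D : ℝ, 0 ≤ D ∧ ∀ (K : Type) [NormedAddCommGroup K] [InnerProductSpace ℂ K]
      [CompleteSpace K] (β : CY k N →⋆ₐ[ℂ] (K →L[ℂ] K)) (Γ : Type) (S : Finset Γ)
      (g : Γ → GG k N), (∀ γ ∈ S, nm (g γ) ≤ C) → Mult S (fun γ => β (act (g γ)⁻¹ f)) D := by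
  obtain ⟨Q, hQ⟩ : ∃ Q : Set (Matrix (Fin (N + 1)) (Fin (N + 1)) k),
    Q = {T | T.det = 1 ∧ ∀ i j, ‖T i j‖ ≤ C} := ⟨_, rfl⟩
  have hQc : IsCompact Q := by
    have h1 : IsCompact {T : Matrix (Fin (N + 1)) (Fin (N + 1)) k | ∀ i j, ‖T i j‖ ≤ C} := by
      have h2 : IsCompact (Set.pi Set.univ fun _ : Fin (N + 1) => Set.pi Set.univ
          fun _ : Fin (N + 1) => Metric.closedBall (0 : k) C) :=
        isCompact_univ_pi fun _ => isCompact_univ_pi fun _ => isCompact_closedBall 0 C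
      refine (congrArg IsCompact ?_).mp h2
      ext T
      simp only [Set.mem_pi, Set.mem_univ, forall_true_left, mem_closedBall_zero_iff]
      exact Iff.rfl
    have h3 : IsClosed {T : Matrix (Fin (N + 1)) (Fin (N + 1)) k | T.det = 1} :=
      isClosed_eq (Continuous.matrix_det continuous_id) continuous_const
    have h4 := h1.inter_left h3
    rw [hQ]
    exact h4
  have hNK : NK Q (1 : CY k N) := by
    intro T hT v _ h0
    rw [hQ] at hT
    have h1 : T.adjugate *ᵥ (T *ᵥ v.1) = v.1 := by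
      rw [Matrix.mulVec_mulVec, Matrix.adjugate_mul, hT.1, one_smul, Matrix.one_mulVec]
    rw [h0, Matrix.mulVec_zero] at h1
    exact v.2 h1.symm
  obtain ⟨D, hD, h⟩ := hf (Fin (N + 1)) Q hQc 1 hNK
  refine ⟨D, hD, fun K _ _ _ β Γ S g hg => ?_⟩
  refine h K β Γ S (fun γ => (g γ).1) (fun γ => act (g γ)⁻¹ f) (fun γ hγ => ?_) fun γ hγ v => ?_
  · rw [hQ]
    exact ⟨(g γ).2, fun i j => (norm_le_pi_norm _ j).trans ((norm_le_pi_norm
      (fun i j => (g γ).1 i j : Fin (N + 1) → Fin (N + 1) → k) i).trans (hg γ hγ))⟩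
  · rw [act_apply]
    obtain ⟨hv, e⟩ := smul_pj (g γ) v
    rw [e, ev_ne f hv]
    simp

end bdd

section main

variable {k : Type} [NontriviallyNormedField k] [ProperSpace k] [MeasurableSpace k] [BorelSpace k]
  {μ : Measure k} [IsFiniteMeasureOnCompacts μ] [μ.IsOpenPosMeasure] {N : ℕ} {E Γ K : Type}
  [Group E] [TopologicalSpace E] [Group Γ] [NormedAddCommGroup K] [InnerProductSpace ℂ K]
  [CompleteSpace K] {w : kˣ} {ι : GG k N →* E} {a a' : E →* PG k (N + 1)}
  {π : E →* (K →L[ℂ] K)} {lam : Γ →* (K →L[ℂ] K)} {W : Set (K →L[ℂ] K)} {Ω : K}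
  {m : Set Γ → (K →L[ℂ] K)} {q : Γ → GG k N} {Z : ℝ → Set Γ}
  {Ec F : YY k N → (CY k N →⋆ₐ[ℂ] (K →L[ℂ] K))}
  {k' : Type} [NontriviallyNormedField k'] [ProperSpace k'] {N' : ℕ}

/-- translation of a calculus by `lam γ⁻¹` -/
theorem lam_inv_mul {kk : Type} [NontriviallyNormedField kk] {n : ℕ}
    {β : CY kk n →⋆ₐ[ℂ] (K →L[ℂ] K)} {p : Γ → GG kk n}
    (cov : ∀ γ f, lam γ * β f * lam γ⁻¹ = β (act (p γ) f)) (γ : Γ) (f : CY kk n) :
    β f * lam γ = lam γ * β (act (p γ)⁻¹ f) := by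
  have h1 := cov γ (act (p γ)⁻¹ f)
  have h2 : act (p γ) (act (p γ)⁻¹ f) = f := by
    ext x
    change f (((p γ)⁻¹)⁻¹ • ((p γ)⁻¹ • x)) = f x
    rw [inv_inv, smul_inv_smul]
  rw [h2] at h1
  have h3 : lam γ⁻¹ * lam γ = 1 := by rw [← map_mul, inv_mul_cancel, map_one]
  rw [← h1, mul_assoc, h3, mul_one]

/-- the translates of `E' f`, `F M h` -/
theorem x1_ad (h : LegN μ w ι a a' π lam W Ω m q Z Ec F) {q' : Γ → GG k' N'}
    (hq' : ∀ R, ∃ C, ∀ γ ∈ Z R, nm (q' γ) ≤ C) {E' : CY k' N' →⋆ₐ[ℂ] (K →L[ℂ] K)}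
    (cm : ∀ f, Cm W (E' f)) (pc : ∀ g f, π (ι g) * E' f = E' f * π (ι g))
    (cov : ∀ γ f, lam γ * E' f * lam γ⁻¹ = E' (act (q' γ) f)) {f : CY k' N'} (hf : Ad (star f))
    {c M : YY k N} (hc : inc c M) {u v : CY k N} (huv : NInc (tsupport u) (tsupport v)) :
    Ec c u * E' f * F M v = 0 := by
  obtain ⟨g, rfl⟩ := exists_y0 (by linarith [h.adm.hN]) c
  obtain ⟨j, hj⟩ : ∃ j : Fin (N + 1), (0 : Fin (N + 1)) ≠ j :=
    ⟨Fin.last N, by
      intro h0
      have := congrArg Fin.val h0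
      have h2 := h.adm.hN
      simp at this
      omega⟩
  obtain ⟨V, hV, hAV, hVB⟩ := exists_room (isClosed_tsupport (u : YY k N → ℂ))
    (isClosed_tsupport (v : YY k N → ℂ)) huv
  -- hyperplanes through `g • y0`
  obtain ⟨M₀, hM₀⟩ : ∃ M₀, M = ct g • M₀ := ⟨(ct g)⁻¹ • M, (smul_inv_smul _ _).symm⟩
  have hinc : ∀ (x : GG k N) (p l : YY k N), inc (x • p) (ct x • l) ↔ inc p l := by
    intro x p l
    have := h.adm.ort (ι x) p l
    rwa [h.adm.comp, h.adm.comp'] at this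
  have hM0 : inc y0 M₀ := by
    rw [hM₀, hinc] at hc
    exact hc
  have hfix : ∀ x : GG k N, ct x • M₀ = M₀ → Commute (F M v) (π (ι (g * x * g⁻¹))) := by
    intro x hx
    have h1 := h.f.pcov (ι (g * x * g⁻¹)) M v
    have h2 : a' (ι (g * x * g⁻¹)) • M = M := by
      rw [h.adm.comp', hM₀, smul_smul, ← map_mul, inv_mul_cancel_right, map_mul, mul_smul, hx]
    rw [h2] at h1
    have h3 : π (ι (g * x * g⁻¹))⁻¹ * π (ι (g * x * g⁻¹)) = 1 := by
      rw [← map_mul, inv_mul_cancel, map_one]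
    change F M v * _ = _ * F M v
    calc F M v * π (ι (g * x * g⁻¹))
        = (π (ι (g * x * g⁻¹)) * F M v * π (ι (g * x * g⁻¹))⁻¹) * π (ι (g * x * g⁻¹)) := by
          rw [h1]
      _ = _ := by rw [mul_assoc, h3, mul_one]
  have hE : ∀ x : GG k N, Commute (E' f) (π (ι x)) := fun x => (pc x f).symm
  rw [mul_assoc]
  refine emz (B := E' f * F M v) h hj ?_ ((hE _).mul_left (hfix _ (ct_bw_fix w hM0)))
    (fun s => (hE _).mul_left (hfix _ (ct_un_fix hj s hM0))) hV hAV fun R => ?_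
  · intro w' hw'
    rw [mul_assoc, h.f.cm M v w' hw', ← mul_assoc, cm f w' hw', mul_assoc]
  · obtain ⟨T₀, hT₀, hcap⟩ := cap_op_u (K := K) (f := star v) (A := V)
      (by linarith [h.adm.hN] : 0 < N) h.ud (by
        intro x hx l hl
        refine hVB x hx l ?_
        have e : tsupport ((star v : CY k N) : YY k N → ℂ) = tsupport (v : YY k N → ℂ) := by
          unfold tsupport
          congr 1
          ext y
          simp
        rwa [e] at hl)
    obtain ⟨C, hC, hcap⟩ := hcap T₀ le_rfl R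
    obtain ⟨C', hC'⟩ := hq' R
    obtain ⟨D, hD, hmul⟩ := mult_bdd hf C'
    refine ⟨T₀, hT₀, C * D ^ 2 * ‖Ω‖ ^ 2, 1, fun J hJ S hS => ?_⟩
    have h1 := (hmul K E' Γ S q' fun γ hγ => hC' γ (hS γ hγ).1.1).2
      (fun γ => F M (act (ct (q γ))⁻¹ (star v))) (C * (1 + J)) (by positivity)
      (fun x => hcap J S hJ hS (F M) x) Ω
    refine le_trans (le_of_eq ?_) (h1.trans (le_of_eq (by ring)))
    refine Finset.sum_congr rfl fun γ hγ => ?_
    congr 1
    have e1 : adjoint (E' f * F M v) = F M (star v) * E' (star f) := by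
      change star (E' f * F M v) = _
      rw [star_mul, ← map_star, ← map_star]
    have e2 : adjoint (E' f * F M v) (lam γ Ω) =
        lam γ (F M (act (ct (q γ))⁻¹ (star v)) (E' (act (q' γ)⁻¹ (star f)) Ω)) := by
      rw [e1]
      have e3 := lam_inv_mul cov γ (star f)
      have e4 := lam_inv_mul (p := fun γ => ct (q γ)) (fun γ f => h.f.cov γ M f) γ (star v)
      calc (F M (star v) * E' (star f)) (lam γ Ω)
          = (F M (star v) * (E' (star f) * lam γ)) Ω := rfl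
        _ = (F M (star v) * lam γ * E' (act (q' γ)⁻¹ (star f))) Ω := by rw [e3, ← mul_assoc]
        _ = _ := by rw [e4]; rfl
    rw [e2]
    have h5 : ‖lam γ (F M (act (ct (q γ))⁻¹ (star v)) (E' (act (q' γ)⁻¹ (star f)) Ω))‖ =
        ‖F M (act (ct (q γ))⁻¹ (star v)) (E' (act (q' γ)⁻¹ (star f)) Ω)‖ :=
      Vale.Agent.P092.H790.CT.lam_norm (Vale.Agent.P092.H790.CT.PicL.of_pic h.pic) γ _
    exact h5

/-- **(X1)**: the calculi `E'` of another factor as letters of the word lemma. -/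
theorem x1_of_dense (h : LegN μ w ι a a' π lam W Ω m q Z Ec F) {q' : Γ → GG k' N'}
    (hq' : ∀ R, ∃ C, ∀ γ ∈ Z R, nm (q' γ) ≤ C) {E' : CY k' N' →⋆ₐ[ℂ] (K →L[ℂ] K)}
    (cm : ∀ f, Cm W (E' f)) (pc : ∀ g f, π (ι g) * E' f = E' f * π (ι g))
    (cov : ∀ γ f, lam γ * E' f * lam γ⁻¹ = E' (act (q' γ) f))
    (hd : Dense {f : CY k' N' | Ad f}) (f : CY k' N')
    {c M : YY k N} (hc : inc c M) {u v : CY k N} (huv : NInc (tsupport u) (tsupport v)) :
    Ec c u * E' f * F M v = 0 := by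
  have hcont : Continuous fun f : CY k' N' => Ec c u * E' f * F M v := by
    have h1 : Continuous fun f : CY k' N' => E' f :=
      AddMonoidHomClass.continuous_of_bound E' 1 fun f => by
        rw [one_mul]
        exact NonUnitalStarAlgHom.norm_apply_le E' f
    exact (continuous_const.mul h1).mul continuous_const
  have hcl : IsClosed {f : CY k' N' | Ec c u * E' f * F M v = 0} :=
    isClosed_eq hcont continuous_const
  have hd' : Dense {f : CY k' N' | Ad (star f)} := by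
    have := hd.preimage (f := fun f : CY k' N' => star f) (Homeomorph.mk
      (Equiv.mk star star star_star star_star) continuous_star continuous_star).isOpenMap
    exact this
  have : f ∈ closure {f : CY k' N' | Ec c u * E' f * F M v = 0} :=
    closure_mono (fun f hf => x1_ad h hq' cm pc cov hf hc huv) (hd' f)
  rw [hcl.closure_eq] at this
  exact this

end main

/-- density of the admissible functions over every local field -/
theorem dense_loc {k : Type} [NontriviallyNormedField k] [ProperSpace k] {m : Type} [Fintype m]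
    (hk : Vale.Agent.P092.H933.LocK k) :
    Dense {f : C(ℙ k (m → k), ℂ) | Ad f} := by
  rcases hk with ⟨φ, h⟩ | ⟨φ, h⟩ | h
  · exact Vale.Agent.P092.H890.dense_ad (Complex.ofRealHom.comp φ.toRingHom) fun z => by
      change ‖((φ z : ℝ) : ℂ)‖ = _
      rw [Complex.norm_real, h]
  · exact Vale.Agent.P092.H890.dense_ad φ.toRingHom fun z => h z
  · exact Vale.Agent.P092.H890.dense_ad_ultra

section fin

variable {k : Type} [NontriviallyNormedField k] [ProperSpace k] [MeasurableSpace k] [BorelSpace k]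
  {μ : Measure k} [IsFiniteMeasureOnCompacts μ] [μ.IsOpenPosMeasure] {N : ℕ} {E Γ K : Type}
  [Group E] [TopologicalSpace E] [Group Γ] [NormedAddCommGroup K] [InnerProductSpace ℂ K]
  [CompleteSpace K] {w : kˣ} {ι : GG k N →* E} {a a' : E →* PG k (N + 1)}
  {π : E →* (K →L[ℂ] K)} {lam : Γ →* (K →L[ℂ] K)} {W : Set (K →L[ℂ] K)} {Ω : K}
  {m : Set Γ → (K →L[ℂ] K)} {q : Γ → GG k N} {Z : ℝ → Set Γ}
  {Ec F : YY k N → (CY k N →⋆ₐ[ℂ] (K →L[ℂ] K))}
  {k' : Type} [NontriviallyNormedField k'] [ProperSpace k'] {N' : ℕ}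

/-- **(X1)** over a local field `k'`. -/
theorem x1 (hk' : Vale.Agent.P092.H933.LocK k') (h : LegN μ w ι a a' π lam W Ω m q Z Ec F)
    {q' : Γ → GG k' N'}
    (hq' : ∀ R, ∃ C, ∀ γ ∈ Z R, nm (q' γ) ≤ C) {E' : CY k' N' →⋆ₐ[ℂ] (K →L[ℂ] K)}
    (cm : ∀ f, Cm W (E' f)) (pc : ∀ g f, π (ι g) * E' f = E' f * π (ι g))
    (cov : ∀ γ f, lam γ * E' f * lam γ⁻¹ = E' (act (q' γ) f)) :
    ∀ (c M : YY k N) (u : CY k N) (f : CY k' N') (v : CY k N), inc c M →
      NInc (tsupport u) (tsupport v) → Ec c u * E' f * F M v = 0 :=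
  fun _ _ _ f _ hc huv => x1_of_dense h hq' cm pc cov (dense_loc hk') f hc huv

end fin

end Vale.Agent.P092.H584.X
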