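import Vale.Agent.P092.SN.Defs
import Vale.Agent.P092.H35.Spg

/-!
P092, TEAM N (helper584), products: the cast of a coordinate `q : Γ → SL_(N'+1)(k)` along `N' = N`
(`N_(τ j) = N_j` in [P-EX]). One induction principle; everything else is `subst`.
-/

set_option linter.all false

open scoped InnerProductSpace ENNReal LinearAlgebra.Projectivization
open Filter Topology

namespace Vale.Agent.P092.H584.Cast

open Vale.Agent.P092.RC (GG PG YY y0 ct)
open Vale.Agent.P092.SN
open Vale.Agent.P092.H35 (sp)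

variable {k : Type} [NontriviallyNormedField k] {N N' : ℕ}

/-- the cast of `SL` -/
def castG (e : N' = N) : GG k N' ≃* GG k N := e ▸ MulEquiv.refl _

theorem castG_rfl (g : GG k N) : castG rfl g = g := rfl

/-- **The induction principle**: every property of coordinates is preserved by the cast. -/
theorem cast_ind {α : Type} {P : ∀ N, (α → GG k N) → Prop} (e : N' = N) (q : α → GG k N')
    (h : P N' q) : P N fun γ => castG e (q γ) := by
  subst e
  exact h

/-- a property of a family of coordinates -/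
theorem cast_ind₂ {α β : Type} {P : ∀ N, (α → GG k N) → (β → GG k N) → Prop} (e : N' = N)
    (q : α → GG k N') (q' : β → GG k N') (h : P N' q q') :
    P N (fun γ => castG e (q γ)) fun γ => castG e (q' γ) := by
  subst e
  exact h

theorem nm_cast (e : N' = N) (g : GG k N') : nm (castG e g) = nm g := by
  subst e
  rfl

theorem ct_cast (e : N' = N) (g : GG k N') : ct (castG e g) = castG e (ct g) := by
  subst e
  rfl

variable {Γ : Type} [Group Γ]

theorem ph_cast (e : N' = N) {q : Γ → GG k N'} (h : PH q) : PH fun γ => castG e (q γ) :=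
  cast_ind (P := fun _ q => PH q) e q h

theorem ud_cast (e : N' = N) {q : Γ → GG k N'} {Z : Set Γ} (h : UD q Z) :
    UD (fun γ => castG e (q γ)) Z := by
  subst e
  exact h

theorem sp_cast (e : N' = N) (g : GG k N') (h : sp k (N' + 1) g = 1) :
    sp k (N + 1) (castG e g) = 1 := by
  subst e
  exact h

theorem sp_cast_iff (e : N' = N) (g : GG k N') :
    sp k (N + 1) (castG e g) = 1 ↔ sp k (N' + 1) g = 1 := by
  subst e
  exact Iff.rfl

theorem nw_cast (e : N' = N) (R : ℝ) (g : GG k N') : NW R (castG e g) ↔ NW R g := by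
  subst e
  exact Iff.rfl

/-- a family of coordinates, relabelled by `τ` -/
def reG {I : Type} {n : I → ℕ} (τ : I → I) (hτ : ∀ i, n (τ i) = n i)
    (q : ∀ i, Γ → GG k (n i)) : ∀ i, Γ → GG k (n i) :=
  fun i γ => castG (hτ i) (q (τ i) γ)

theorem reG_nm {I : Type} {n : I → ℕ} {τ : I → I} (hτ : ∀ i, n (τ i) = n i)
    (q : ∀ i, Γ → GG k (n i)) (i : I) (γ : Γ) : nm (reG τ hτ q i γ) = nm (q (τ i) γ) :=
  nm_cast _ _

theorem reG_ph {I : Type} {n : I → ℕ} {τ : I → I} (hτ : ∀ i, n (τ i) = n i)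
    {q : ∀ i, Γ → GG k (n i)} (h : ∀ i, PH (q i)) (i : I) : PH (reG τ hτ q i) :=
  ph_cast _ (h _)

/-- joint properness -/
theorem reG_fin {I : Type} {n : I → ℕ} {τ : I → I} (hτ : ∀ i, n (τ i) = n i)
    (hs : Function.Surjective τ) {q : ∀ i, Γ → GG k (n i)}
    (h : ∀ C : ℝ, {γ | ∀ i, nm (q i γ) ≤ C}.Finite) (C : ℝ) :
    {γ | ∀ i, nm (reG τ hτ q i γ) ≤ C}.Finite := by
  refine (h C).subset fun γ hγ i => ?_
  obtain ⟨i', rfl⟩ := hs i
  have := hγ i'
  rwa [reG_nm] at this

/-- joint injectivity -/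
theorem reG_inj {I : Type} {n : I → ℕ} {τ : I → I} (hτ : ∀ i, n (τ i) = n i)
    (hs : Function.Surjective τ) {q : ∀ i, Γ → GG k (n i)}
    (h : ∀ γ, (∀ i, sp k (n i + 1) (q i γ) = 1) → γ = 1) (γ : Γ)
    (hγ : ∀ i, sp k (n i + 1) (reG τ hτ q i γ) = 1) : γ = 1 := by
  refine h γ fun i => ?_
  obtain ⟨i', rfl⟩ := hs i
  exact (sp_cast_iff _ _).1 (hγ i')

/-- the sets `Z` of the relabelled family -/
theorem reG_Z {I : Type} {n : I → ℕ} {τ : I → I} (hτ : ∀ i, n (τ i) = n i)
    (hb : Function.Bijective τ) (q : ∀ i, Γ → GG k (n i)) (j : I) (R : ℝ) :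
    {γ | ∀ i, i ≠ j → nm (reG τ hτ q i γ) ≤ R} = {γ | ∀ i, i ≠ τ j → nm (q i γ) ≤ R} := by
  ext γ
  simp only [Set.mem_setOf_eq, reG_nm]
  constructor
  · intro h i hi
    obtain ⟨i', rfl⟩ := hb.2 i
    exact h i' fun h' => hi (by rw [h'])
  · intro h i hi
    exact h (τ i) fun h' => hi (hb.1 h')

end Vale.Agent.P092.H584.Cast
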