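import Vale.Agent.P092.H515.LatSl

/-!
P092 (helper584), team C, block [C-FD]: lattices in groups with a torsion free compact open
subgroup `U`.  Exact (locally constant) fundamental domains, sections and cocycles.
-/

set_option linter.all false

open MeasureTheory MeasureTheory.Measure Set Filter Topology
open scoped ENNReal NNReal Pointwise

namespace Vale.Agent.P092.H584

/-- `U` is torsion free. -/
def TF {G : Type*} [Group G] (U : Subgroup G) : Prop := ∀ u ∈ U, ∀ n : ℕ, n ≠ 0 → u ^ n = 1 → u = 1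

theorem TF.mono {G : Type*} [Group G] {U V : Subgroup G} (h : TF U) (hV : V ≤ U) : TF V :=
  fun u hu => h u (hV hu)

section abs

variable {E : Type} [Group E] [TopologicalSpace E] [IsTopologicalGroup E] [LocallyCompactSpace E]
  [SecondCountableTopology E] [T2Space E] {Λ U : Subgroup E}

/-- A discrete group acts freely on `E ⧸ U`, `U` compact and torsion free. -/
theorem free [hd : DiscreteTopology Λ] (hc : IsCompact (U : Set E)) (ht : TF U) {v : E} (hv : v ∈ Λ)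
    {x : E} (h : x⁻¹ * v * x ∈ U) : v = 1 := by
  have hK : IsCompact ((fun u => x * u * x⁻¹) '' (U : Set E)) := hc.image (by fun_prop)
  have hfin : {w : Λ | (w : E) ∈ (fun u => x * u * x⁻¹) '' (U : Set E)}.Finite :=
    H515.finite_of_compact Λ hK
  have hcj : ∀ n : ℕ, (x⁻¹ * v * x) ^ n = x⁻¹ * v ^ n * x := by
    intro n
    have := conj_pow (a := x⁻¹) (b := v) (i := n)
    rwa [inv_inv] at this
  have hpow : ∀ n : ℕ, (⟨v, hv⟩ : Λ) ^ n ∈
      {w : Λ | (w : E) ∈ (fun u => x * u * x⁻¹) '' (U : Set E)} := by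
    intro n
    refine ⟨(x⁻¹ * v * x) ^ n, U.pow_mem h n, ?_⟩
    simp only [hcj]
    show x * (x⁻¹ * v ^ n * x) * x⁻¹ = v ^ n
    group
  obtain ⟨a, b, hab, e⟩ : ∃ a b : ℕ, a < b ∧ (⟨v, hv⟩ : Λ) ^ a = (⟨v, hv⟩ : Λ) ^ b := by
    by_contra hne
    push Not at hne
    have hinj : Function.Injective fun n : ℕ => (⟨v, hv⟩ : Λ) ^ n := by
      intro a b e
      by_contra hab
      rcases lt_or_gt_of_ne hab with h1 | h1
      · exact hne a b h1 e
      · exact hne b a h1 e.symm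
    exact Set.infinite_of_injective_forall_mem hinj hpow hfin
  have e1 : (⟨v, hv⟩ : Λ) ^ (b - a) = 1 := by
    have h2 : (⟨v, hv⟩ : Λ) ^ a * (⟨v, hv⟩ : Λ) ^ (b - a) = (⟨v, hv⟩ : Λ) ^ a * 1 := by
      rw [← pow_add, mul_one, Nat.add_sub_cancel' hab.le, e]
    exact mul_left_cancel h2
  have e2 : v ^ (b - a) = 1 := congrArg Subtype.val e1
  have e3 : (x⁻¹ * v * x) ^ (b - a) = 1 := by
    rw [hcj, e2, mul_one, inv_mul_cancel]
  have e4 := ht _ h (b - a) (by omega) e3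
  have e5 : v = x * (x⁻¹ * v * x) * x⁻¹ := by group
  rw [e5, e4, mul_one, mul_inv_cancel]

/-- the double coset `Λ g U` -/
def dc (Λ U : Subgroup E) (g : E) : Set E := {x | ∃ v ∈ Λ, ∃ u ∈ U, x = v * g * u}

theorem mem_dc_self (g : E) : g ∈ dc Λ U g := ⟨1, Λ.one_mem, 1, U.one_mem, by simp⟩

theorem dc_eq {g h : E} (e : h ∈ dc Λ U g) : dc Λ U h = dc Λ U g := by
  obtain ⟨v, hv, u, hu, rfl⟩ := e
  ext x
  constructor
  · rintro ⟨w, hw, z, hz, rfl⟩
    exact ⟨w * v, Λ.mul_mem hw hv, u * z, U.mul_mem hu hz, by group⟩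
  · rintro ⟨w, hw, z, hz, rfl⟩
    exact ⟨w * v⁻¹, Λ.mul_mem hw (Λ.inv_mem hv), u⁻¹ * z, U.mul_mem (U.inv_mem hu) hz, by group⟩

theorem dc_disj {g h : E} (e : h ∉ dc Λ U g) : Disjoint (dc Λ U g) (dc Λ U h) := by
  rw [Set.disjoint_left]
  intro x hx hy
  apply e
  rw [← dc_eq hx, dc_eq hy]
  exact mem_dc_self h

/-- the part of a fundamental domain in a double coset has the volume of `U` -/
theorem vol_dc [MeasurableSpace E] [BorelSpace E] [hd : DiscreteTopology Λ] (hU : IsOpen (U : Set E)) (hc : IsCompact (U : Set E))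
    (ht : TF U) (μ : Measure E) [μ.IsMulLeftInvariant] {F : Set E} (hF : MeasurableSet F)
    (hx : ∀ x : E, ∃! v : Λ, v * x ∈ F) (g : E) : μ (F ∩ dc Λ U g) = μ U := by
  have := H790.countable_of_discrete Λ
  have hgU : MeasurableSet (g • (U : Set E)) := (hU.smul g).measurableSet
  -- the pieces of `g U`
  have h1 : g • (U : Set E) = ⋃ v : Λ, (g • (U : Set E)) ∩ (fun x => (v : E) * x) ⁻¹' F := by
    rw [← inter_iUnion]
    refine (inter_eq_left.2 fun x _ => ?_).symm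
    obtain ⟨v, hv, _⟩ := hx x
    exact mem_iUnion.2 ⟨v, hv⟩
  have h2 : F ∩ dc Λ U g = ⋃ v : Λ, ((v : E) • (g • (U : Set E))) ∩ F := by
    ext x
    simp only [mem_inter_iff, mem_iUnion]
    constructor
    · rintro ⟨hx, v, hv, u, hu, rfl⟩
      refine ⟨⟨v, hv⟩, ?_, hx⟩
      exact ⟨g * u, ⟨u, hu, rfl⟩, by simp [mul_assoc]⟩
    · rintro ⟨v, ⟨y, ⟨u, hu, rfl⟩, rfl⟩, hx⟩
      exact ⟨hx, v, v.2, u, hu, by simp [mul_assoc]⟩
  have d1 : Pairwise (Function.onFun Disjoint fun v : Λ =>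
      (g • (U : Set E)) ∩ (fun x => (v : E) * x) ⁻¹' F) := by
    intro v w hvw
    rw [Function.onFun, Set.disjoint_left]
    rintro x ⟨_, h3⟩ ⟨_, h4⟩
    exact hvw ((hx x).unique h3 h4)
  have d2 : Pairwise (Function.onFun Disjoint fun v : Λ => ((v : E) • (g • (U : Set E))) ∩ F) := by
    intro v w hvw
    rw [Function.onFun, Set.disjoint_left]
    rintro x ⟨⟨y, ⟨u, hu, rfl⟩, e1⟩, _⟩ ⟨⟨y', ⟨u', hu', rfl⟩, e2⟩, _⟩
    simp only [smul_eq_mul] at e1 e2
    have e3 : (v : E) * (g * u) = w * (g * u') := e1.trans e2.symm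
    have e4 : g⁻¹ * ((w : E)⁻¹ * v) * g = u' * u⁻¹ := by
      calc g⁻¹ * ((w : E)⁻¹ * v) * g = g⁻¹ * (w : E)⁻¹ * (v * (g * u)) * u⁻¹ := by group
        _ = g⁻¹ * (w : E)⁻¹ * (w * (g * u')) * u⁻¹ := by rw [e3]
        _ = u' * u⁻¹ := by group
    have e5 := free hc ht (Λ.mul_mem (Λ.inv_mem w.2) v.2) (x := g)
      (by rw [e4]; exact U.mul_mem hu' (U.inv_mem hu))
    apply hvw
    exact Subtype.ext (inv_mul_eq_one.1 e5).symm
  have m1 : ∀ v : Λ, MeasurableSet ((g • (U : Set E)) ∩ (fun x => (v : E) * x) ⁻¹' F) := fun v =>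
    hgU.inter (measurable_const_mul (v : E) hF)
  have m2 : ∀ v : Λ, MeasurableSet (((v : E) • (g • (U : Set E))) ∩ F) := fun v =>
    (((hU.smul g).smul (v : E)).measurableSet).inter hF
  have e1 : μ (g • (U : Set E)) = μ U := measure_smul μ g (U : Set E)
  rw [← e1, h2, measure_iUnion d2 m2]
  conv_rhs => rw [h1, measure_iUnion d1 m1]
  refine tsum_congr fun v => ?_
  have e2 : ((v : E) • (g • (U : Set E))) ∩ F =
      (v : E) • ((g • (U : Set E)) ∩ (fun x => (v : E) * x) ⁻¹' F) := by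
    rw [smul_set_inter]
    congr 1
    ext x
    constructor
    · intro hx
      exact ⟨(v : E)⁻¹ * x, by simpa using hx, by simp⟩
    · rintro ⟨y, hy, rfl⟩
      exact hy
  rw [e2, measure_smul]

/-- **Finitely many double cosets.** -/
theorem exists_fin (h : H515.IsLattice Λ) (hU : IsOpen (U : Set E)) (hc : IsCompact (U : Set E))
    (ht : TF U) : ∃ F : Finset E, (∀ g : E, ∃ f ∈ F, g ∈ dc Λ U f) ∧
      ∀ f ∈ F, ∀ f' ∈ F, f ∈ dc Λ U f' → f = f' := by
  classical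
  borelize E
  have hd := h.disc
  obtain ⟨μ, hμ⟩ : ∃ μ : Measure E, μ = haar := ⟨_, rfl⟩
  have hH : IsHaarMeasure μ := by rw [hμ]; infer_instance
  obtain ⟨D, hD, hDf, hD0, hx, _⟩ := h.exists_fdom_left μ
  have hU0 : μ U ≠ 0 := (hU.measure_pos μ ⟨1, U.one_mem⟩).ne'
  have hUt : μ U ≠ ⊤ := hc.measure_lt_top.ne
  -- independent finite sets have bounded cardinality
  have key : ∀ F : Finset E, (∀ f ∈ F, ∀ f' ∈ F, f ∈ dc Λ U f' → f = f') →
      (F.card : ℝ≥0∞) ≤ μ D / μ U := by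
    intro F hF
    rw [ENNReal.le_div_iff_mul_le (Or.inl hU0) (Or.inl hUt)]
    calc (F.card : ℝ≥0∞) * μ U = ∑ f ∈ F, μ (D ∩ dc Λ U f) := by
          rw [Finset.sum_congr rfl fun f _ => vol_dc hU hc ht μ hD hx f, Finset.sum_const,
            nsmul_eq_mul]
      _ = μ (⋃ f ∈ F, D ∩ dc Λ U f) := by
          refine (measure_biUnion_finset ?_ ?_).symm
          · intro f hf f' hf' hne
            refine (dc_disj fun e => hne ?_).mono inter_subset_right inter_subset_right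
            exact (hF f' hf' f hf e).symm
          · intro f hf
            refine hD.inter ?_
            have : dc Λ U f = ⋃ v : Λ, (v : E) • (f • (U : Set E)) := by
              ext x
              simp only [mem_iUnion]
              constructor
              · rintro ⟨v, hv, u, hu, rfl⟩
                exact ⟨⟨v, hv⟩, f * u, ⟨u, hu, rfl⟩, by simp [mul_assoc]⟩
              · rintro ⟨v, y, ⟨u, hu, rfl⟩, rfl⟩
                exact ⟨v, v.2, u, hu, by simp [mul_assoc]⟩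
            rw [this]
            have := H790.countable_of_discrete Λ
            exact MeasurableSet.iUnion fun v => ((hU.smul f).smul (v : E)).measurableSet
      _ ≤ μ D := measure_mono (iUnion₂_subset fun f _ => inter_subset_left)
  -- take one of maximal cardinality
  obtain ⟨N, hN⟩ : ∃ N : ℕ, μ D / μ U ≤ N := by
    have : μ D / μ U ≠ ⊤ := (ENNReal.div_lt_top hDf.ne hU0).ne
    obtain ⟨N, hN⟩ := ENNReal.exists_nat_gt this
    exact ⟨N, hN.le⟩
  have hb : ∀ F : Finset E, (∀ f ∈ F, ∀ f' ∈ F, f ∈ dc Λ U f' → f = f') → F.card ≤ N := by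
    intro F hF
    exact_mod_cast (key F hF).trans hN
  obtain ⟨n, hn⟩ : ∃ n, n = Nat.findGreatest (fun n => ∃ F : Finset E, F.card = n ∧
    ∀ f ∈ F, ∀ f' ∈ F, f ∈ dc Λ U f' → f = f') N := ⟨_, rfl⟩
  have h0 : ∃ F : Finset E, F.card = 0 ∧ ∀ f ∈ F, ∀ f' ∈ F, f ∈ dc Λ U f' → f = f' :=
    ⟨∅, rfl, by simp⟩
  obtain ⟨F, hF, hF'⟩ := Nat.findGreatest_spec (P := fun n => ∃ F : Finset E, F.card = n ∧
    ∀ f ∈ F, ∀ f' ∈ F, f ∈ dc Λ U f' → f = f') (Nat.zero_le N) h0
  refine ⟨F, fun g => ?_, hF'⟩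
  by_contra hg
  push Not at hg
  have hgF : g ∉ F := fun hm => hg g hm (mem_dc_self g)
  have h3 : ∀ f ∈ insert g F, ∀ f' ∈ insert g F, f ∈ dc Λ U f' → f = f' := by
    intro f hf f' hf' e
    rw [Finset.mem_insert] at hf hf'
    rcases hf with rfl | hf <;> rcases hf' with rfl | hf'
    · rfl
    · exact absurd e (hg f' hf')
    · refine absurd ?_ (hg f hf)
      rw [dc_eq e]
      exact mem_dc_self f'
    · exact hF' f hf f' hf' e
  have h4 : (insert g F).card = F.card + 1 := Finset.card_insert_of_notMem hgF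
  have h5 := hb _ h3
  have h6 := Nat.le_findGreatest (P := fun n => ∃ F : Finset E, F.card = n ∧
    ∀ f ∈ F, ∀ f' ∈ F, f ∈ dc Λ U f' → f = f') h5 ⟨_, rfl, h3⟩
  rw [← hF, h4] at h6
  omega


/-- **Exact fundamental domain** (for `E ⧸ Λ`): compact open, invariant under left translations by
`U`, and every point has exactly one translate `g * v`, `v ∈ Λ`, in it. -/
theorem exists_om (h : H515.IsLattice Λ) (hU : IsOpen (U : Set E)) (hc : IsCompact (U : Set E))
    (ht : TF U) : ∃ (F : Finset E) (Ω : Set E), (Ω = ⋃ f ∈ F, (fun u => u * f) '' (U : Set E)) ∧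
      IsOpen Ω ∧ IsCompact Ω ∧ (∀ u ∈ U, ∀ x ∈ Ω, u * x ∈ Ω) ∧ (∀ g : E, ∃! v : Λ, g * v ∈ Ω) ∧
      (∀ f ∈ F, ∀ f' ∈ F, ∀ u ∈ U, ∀ u' ∈ U, u * f = u' * f' → f = f') := by
  classical
  have hd := h.disc
  obtain ⟨F, hF, hF'⟩ := exists_fin h hU hc ht
  refine ⟨F.image Inv.inv, _, rfl, ?_, ?_, ?_, ?_, ?_⟩
  · refine isOpen_biUnion fun f _ => ?_
    exact (isOpenMap_mul_right f) _ hU
  · refine Finset.isCompact_biUnion _ fun f _ => ?_
    exact hc.image (by fun_prop)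
  · intro u hu x hx
    simp only [mem_iUnion] at hx ⊢
    obtain ⟨f, hf, w, hw, rfl⟩ := hx
    exact ⟨f, hf, u * w, U.mul_mem hu hw, by simp [mul_assoc]⟩
  · intro g
    obtain ⟨f, hf, v, hv, u, hu, e⟩ := hF g⁻¹
    refine ⟨⟨v, hv⟩, ?_, ?_⟩
    · simp only [mem_iUnion]
      refine ⟨f⁻¹, Finset.mem_image_of_mem _ hf, u⁻¹, U.inv_mem hu, ?_⟩
      have : g = u⁻¹ * f⁻¹ * v⁻¹ := by
        rw [← inv_inv g, e]; group
      rw [this]; group
    · rintro ⟨w, hw⟩ hw2
      simp only [mem_iUnion] at hw2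
      obtain ⟨f', hf', z, hz, e2⟩ := hw2
      obtain ⟨f1, hf1, rfl⟩ := Finset.mem_image.1 hf'
      have e3 : g⁻¹ = w * f1 * z⁻¹ := by
        have e2' : z * f1⁻¹ = g * w := e2
        have : g = z * f1⁻¹ * w⁻¹ := by
          rw [e2']; group
        rw [this]; group
      have e4 : f1 = f := by
        refine hF' f1 hf1 f hf ⟨w⁻¹ * v, Λ.mul_mem (Λ.inv_mem hw) hv, u * z,
          U.mul_mem hu hz, ?_⟩
        have : w * f1 * z⁻¹ = v * f * u := e3.symm.trans e
        calc f1 = w⁻¹ * (w * f1 * z⁻¹) * z := by group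
          _ = w⁻¹ * (v * f * u) * z := by rw [this]
          _ = _ := by group
      subst e4
      have e5 : f1⁻¹ * (v⁻¹ * w) * f1 = u * z := by
        have : w * f1 * z⁻¹ = v * f1 * u := e3.symm.trans e
        calc f1⁻¹ * (v⁻¹ * w) * f1 = f1⁻¹ * v⁻¹ * (w * f1 * z⁻¹) * z := by group
          _ = f1⁻¹ * v⁻¹ * (v * f1 * u) * z := by rw [this]
          _ = _ := by group
      have e6 := free hc ht (Λ.mul_mem (Λ.inv_mem hv) hw) (x := f1)
        (by rw [e5]; exact U.mul_mem hu hz)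
      exact Subtype.ext (inv_mul_eq_one.1 e6).symm
  · intro f hf f' hf' u hu u' hu' e
    obtain ⟨f1, hf1, rfl⟩ := Finset.mem_image.1 hf
    obtain ⟨f2, hf2, rfl⟩ := Finset.mem_image.1 hf'
    have : f1 = f2 := by
      refine hF' f1 hf1 f2 hf2 ⟨1, Λ.one_mem, u'⁻¹ * u, U.mul_mem (U.inv_mem hu') hu, ?_⟩
      have e2 : f2 * u'⁻¹ = f1 * u⁻¹ := by
        have := congrArg Inv.inv e
        simpa using this.symm
      calc f1 = f1 * u⁻¹ * u := by group
        _ = f2 * u'⁻¹ * u := by rw [e2]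
        _ = _ := by group
    rw [this]

end abs

/-- **An exact section**: a continuous section of `E → E ⧸ Λ` with compact open range which
commutes with `U`. -/
structure ESec {E : Type} [Group E] [TopologicalSpace E] (Λ U : Subgroup E) where
  /-- the section -/
  s : E ⧸ Λ → E
  cont : Continuous s
  coe : ∀ x, ((s x : E) : E ⧸ Λ) = x
  smul : ∀ u ∈ U, ∀ x, s (u • x) = u * s x
  cpt : IsCompact (range s)
  opn : IsOpen (range s)

section abs2

variable {E : Type} [Group E] [TopologicalSpace E] [IsTopologicalGroup E] [LocallyCompactSpace E]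
  [SecondCountableTopology E] [T2Space E] {Λ U : Subgroup E}

theorem exists_sec (h : H515.IsLattice Λ) (hU : IsOpen (U : Set E)) (hc : IsCompact (U : Set E))
    (ht : TF U) : Nonempty (ESec Λ U) := by
  obtain ⟨F, Ω, -, ho, hk, hinv, hun, -⟩ := exists_om h hU hc ht
  have hex : ∀ x : E ⧸ Λ, ∃ g : E, g ∈ Ω ∧ (g : E ⧸ Λ) = x := by
    intro x
    obtain ⟨g, rfl⟩ := QuotientGroup.mk_surjective x
    obtain ⟨v, hv, _⟩ := hun g
    exact ⟨g * v, hv, QuotientGroup.mk_mul_of_mem g v.2⟩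
  have hu : ∀ g ∈ Ω, ∀ g' ∈ Ω, (g : E ⧸ Λ) = g' → g = g' := by
    intro g hg g' hg' e
    have hm : g⁻¹ * g' ∈ Λ := QuotientGroup.eq.1 e
    have h1 := (hun g).unique (y₁ := 1) (y₂ := ⟨_, hm⟩) (by simpa using hg) (by simpa using hg')
    have h2 : (1 : E) = g⁻¹ * g' := congrArg Subtype.val h1
    rw [eq_comm, inv_mul_eq_one] at h2
    exact h2
  choose s hs hs' using hex
  have hrange : range s = Ω := by
    ext g
    constructor
    · rintro ⟨x, rfl⟩; exact hs x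
    · intro hg
      exact ⟨(g : E ⧸ Λ), hu _ (hs _) _ hg (hs' _)⟩
  refine ⟨⟨s, ?_, hs', ?_, by rw [hrange]; exact hk, by rw [hrange]; exact ho⟩⟩
  · rw [continuous_def]
    intro V hV
    have e : s ⁻¹' V = (QuotientGroup.mk : E → E ⧸ Λ) '' (V ∩ Ω) := by
      ext x
      constructor
      · intro hx
        exact ⟨s x, ⟨hx, hs x⟩, hs' x⟩
      · rintro ⟨g, ⟨hg, hgo⟩, rfl⟩
        show s (g : E ⧸ Λ) ∈ V
        rw [hu _ (hs _) _ hgo (hs' _)]
        exact hg
    rw [e]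
    exact QuotientGroup.isOpenMap_coe _ (hV.inter ho)
  · intro u hu' x
    refine hu _ (hs _) _ (hinv u hu' _ (hs x)) ?_
    rw [hs']
    conv_lhs => rw [← hs' x]
    rfl

end abs2

namespace ESec

variable {E : Type} [Group E] [TopologicalSpace E] [IsTopologicalGroup E] {Λ U : Subgroup E}
  (S : ESec Λ U)

include S in
theorem compactSpace : CompactSpace (E ⧸ Λ) := by
  have h : (univ : Set (E ⧸ Λ)) = (QuotientGroup.mk : E → E ⧸ Λ) '' range S.s := by
    ext x
    simp only [mem_univ, true_iff]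
    exact ⟨S.s x, ⟨x, rfl⟩, S.coe x⟩
  exact ⟨by rw [h]; exact S.cpt.image QuotientGroup.continuous_mk⟩

theorem coc_mem (g : E) (x : E ⧸ Λ) : (S.s (g • x))⁻¹ * g * S.s x ∈ Λ := by
  rw [mul_assoc]
  refine QuotientGroup.eq.1 ?_
  rw [S.coe]
  conv_lhs => rw [← S.coe x]
  rfl

/-- The cocycle `c(g, x) = s(g x)⁻¹ g s(x)`. -/
def coc (g : E) (x : E ⧸ Λ) : Λ := ⟨(S.s (g • x))⁻¹ * g * S.s x, S.coc_mem g x⟩

theorem coc_coe (g : E) (x : E ⧸ Λ) : (S.coc g x : E) = (S.s (g • x))⁻¹ * g * S.s x := rfl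

theorem s_mul_coc (g : E) (x : E ⧸ Λ) : S.s (g • x) * (S.coc g x : E) = g * S.s x := by
  rw [coc_coe]
  group

theorem coc_mul (g h : E) (x : E ⧸ Λ) : S.coc (g * h) x = S.coc g (h • x) * S.coc h x := by
  apply Subtype.ext
  simp only [Subgroup.coe_mul, coc_coe, mul_smul]
  group

theorem coc_of_mem {u : E} (hu : u ∈ U) (x : E ⧸ Λ) : S.coc u x = 1 := by
  apply Subtype.ext
  rw [coc_coe, S.smul u hu, Subgroup.coe_one]
  group

theorem coc_one (x : E ⧸ Λ) : S.coc 1 x = 1 := S.coc_of_mem U.one_mem x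

/-- `c(g u, x) = c(g, u x)` for `u ∈ U`. -/
theorem coc_mul_right {u : E} (hu : u ∈ U) (g : E) (x : E ⧸ Λ) :
    S.coc (g * u) x = S.coc g (u • x) := by
  rw [coc_mul, S.coc_of_mem hu, mul_one]

/-- `c(u g, x) = c(g, x)` for `u ∈ U`. -/
theorem coc_mul_left {u : E} (hu : u ∈ U) (g : E) (x : E ⧸ Λ) :
    S.coc (u * g) x = S.coc g x := by
  rw [coc_mul, S.coc_of_mem hu, one_mul]

theorem coc_inv (g : E) (x : E ⧸ Λ) : S.coc g⁻¹ (g • x) = (S.coc g x)⁻¹ := by
  rw [eq_inv_iff_mul_eq_one, ← coc_mul, inv_mul_cancel, coc_one]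

theorem coc_cont : Continuous fun q : E × (E ⧸ Λ) => S.coc q.1 q.2 := by
  refine Continuous.subtype_mk ?_ _
  have h1 : Continuous fun q : E × (E ⧸ Λ) => q.1 • q.2 := continuous_smul
  exact ((S.cont.comp h1).inv.mul continuous_fst).mul (S.cont.comp continuous_snd)

/-- finitely many values over compact sets -/
theorem coc_fin [DiscreteTopology Λ] {K : Set E} (hK : IsCompact K) :
    {v : Λ | ∃ g ∈ K, ∃ x, v = S.coc g x}.Finite := by
  have := S.compactSpace
  have h1 : IsCompact (K ×ˢ (univ : Set (E ⧸ Λ))) := hK.prod isCompact_univ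
  have h2 := (h1.image S.coc_cont).finite_of_discrete
  refine h2.subset ?_
  rintro v ⟨g, hg, x, rfl⟩
  exact ⟨(g, x), ⟨hg, mem_univ x⟩, rfl⟩

theorem coc_fin_one [DiscreteTopology Λ] (g : E) : {v : Λ | ∃ x, v = S.coc g x}.Finite :=
  (S.coc_fin (isCompact_singleton (x := g))).subset fun v ⟨x, hx⟩ => ⟨g, rfl, x, hx⟩

/-- the level sets of the cocycle are clopen -/
theorem coc_clopen [DiscreteTopology Λ] (g : E) (v : Λ) : IsClopen {x | S.coc g x = v} := by
  have h1 : Continuous fun x : E ⧸ Λ => S.coc g x :=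
    S.coc_cont.comp (continuous_const.prodMk continuous_id)
  exact (isClopen_discrete {v}).preimage h1

/-- a smaller compact open group may be used -/
def mono {V : Subgroup E} (h : V ≤ U) : ESec Λ V :=
  ⟨S.s, S.cont, S.coe, fun u hu => S.smul u (h hu), S.cpt, S.opn⟩

theorem inj : Function.Injective S.s := fun x y h => by
  rw [← S.coe x, ← S.coe y, h]

theorem existsUnique (g : E) : ∃! v : Λ, g * v ∈ range S.s := by
  have hm : g⁻¹ * S.s (g : E ⧸ Λ) ∈ Λ := QuotientGroup.eq.1 (S.coe _).symm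
  refine ⟨⟨_, hm⟩, ⟨(g : E ⧸ Λ), by simp⟩, ?_⟩
  rintro ⟨v, hv⟩ ⟨x, hx⟩
  apply Subtype.ext
  have h1 : x = (g : E ⧸ Λ) := by
    rw [← S.coe x, hx]
    exact QuotientGroup.mk_mul_of_mem g hv
  show v = g⁻¹ * S.s (g : E ⧸ Λ)
  rw [← h1, hx]
  simp

include S in
/-- The stabilisers of the points of `E ⧸ Λ` in `U` are trivial. -/
theorem free_smul {u : E} (hu : u ∈ U) {x : E ⧸ Λ} (h : u • x = x) : u = 1 := by
  have := S.smul u hu x
  rw [h] at this
  exact (mul_eq_right.1 this.symm)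

end ESec

section abs3

variable {E : Type} [Group E] [TopologicalSpace E] [IsTopologicalGroup E] [LocallyCompactSpace E]
  [SecondCountableTopology E] [T2Space E] {Λ U : Subgroup E}

/-- `E ⧸ Λ` is a finite disjoint union of free `U`-orbits. -/
theorem exists_homeo (h : H515.IsLattice Λ) (hU : IsOpen (U : Set E)) (hc : IsCompact (U : Set E))
    (ht : TF U) : ∃ (F : Finset E) (e : F × U ≃ₜ E ⧸ Λ),
      ∀ (f : F) (u : U), e (f, u) = (((u : E) * f : E) : E ⧸ Λ) := by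
  classical
  obtain ⟨F, Ω, hΩ, ho, hk, hinv, hun, hF⟩ := exists_om h hU hc ht
  have hu : ∀ g ∈ Ω, ∀ g' ∈ Ω, (g : E ⧸ Λ) = g' → g = g' := by
    intro g hg g' hg' e
    have hm : g⁻¹ * g' ∈ Λ := QuotientGroup.eq.1 e
    have h1 := (hun g).unique (y₁ := 1) (y₂ := ⟨_, hm⟩) (by simpa using hg) (by simpa using hg')
    have h2 : (1 : E) = g⁻¹ * g' := congrArg Subtype.val h1
    rw [eq_comm, inv_mul_eq_one] at h2
    exact h2
  have hmem : ∀ (f : F) (u : U), (u : E) * f ∈ Ω := by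
    intro f u
    rw [hΩ]
    simp only [mem_iUnion]
    exact ⟨f, f.2, u, u.2, rfl⟩
  obtain ⟨m, hm⟩ : ∃ m : F × U → E ⧸ Λ, m = fun q => (((q.2 : E) * q.1 : E) : E ⧸ Λ) := ⟨_, rfl⟩
  have hcont : Continuous m := by
    rw [hm]
    refine QuotientGroup.continuous_mk.comp ?_
    fun_prop
  have hinj : Function.Injective m := by
    rintro ⟨f, u⟩ ⟨f', u'⟩ e
    rw [hm] at e
    have e1 := hu _ (hmem f u) _ (hmem f' u') e
    have e2 : f = f' := Subtype.ext (hF _ f.2 _ f'.2 _ u.2 _ u'.2 e1)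
    subst e2
    have e3 : u = u' := Subtype.ext (mul_right_cancel e1)
    rw [e3]
  have hsurj : Function.Surjective m := by
    intro x
    obtain ⟨g, rfl⟩ := QuotientGroup.mk_surjective x
    obtain ⟨v, hv, _⟩ := hun g
    have hv' : g * v ∈ Ω := hv
    rw [hΩ] at hv'
    simp only [mem_iUnion] at hv'
    obtain ⟨f, hf, u, hu', e⟩ := hv'
    refine ⟨(⟨f, hf⟩, ⟨u, hu'⟩), ?_⟩
    rw [hm]
    show ((u * f : E) : E ⧸ Λ) = g
    rw [show u * f = g * v from e]
    exact QuotientGroup.mk_mul_of_mem g v.2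
  have hopen : IsOpenMap m := by
    intro W hW
    rw [isOpen_iff_mem_nhds]
    rintro _ ⟨⟨f, u⟩, hfu, rfl⟩
    -- the slice
    have h1 : IsOpen {w : U | (f, w) ∈ W} := hW.preimage (by fun_prop)
    have h2 : IsOpen ((fun w : E => w * f) '' (Subtype.val '' {w : U | (f, w) ∈ W})) :=
      (isOpenMap_mul_right (f : E)) _ (hU.isOpenMap_subtype_val _ h1)
    have h3 := QuotientGroup.isOpenMap_coe (N := Λ) _ h2
    refine Filter.mem_of_superset (h3.mem_nhds ⟨_, ⟨u, ⟨u, hfu, rfl⟩, rfl⟩, by rw [hm]⟩) ?_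
    rintro _ ⟨_, ⟨_, ⟨w, hw, rfl⟩, rfl⟩, rfl⟩
    exact ⟨(f, w), hw, by rw [hm]⟩
  refine ⟨F, (Equiv.ofBijective m ⟨hinj, hsurj⟩).toHomeomorphOfContinuousOpen hcont hopen, ?_⟩
  intro f u
  show m (f, u) = _
  rw [hm]

end abs3

end Vale.Agent.P092.H584
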