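import Vale.Agent.P092.H515.Start

/-!
P092, TEAM N (helper584), products, block [P-TAU] (T3), counting.

* `tau_le`: if all the products of a chain of length `m` are tight outside a set `P` of classes of
  gaps, then `m ≤ |P|`.
* `tau_bij`: if `∑_{τ i = j} N i ≤ N j` for all `j` (`N > 0`), then `τ` is a bijection and
  `N (τ i) = N i`.
* `tau_all`: both together.
* `tau_fill`: and then the chain of the factors of one fibre fills all the gaps of `P`.
-/

set_option linter.all false

open Filter Topology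

namespace Vale.Agent.P092.H584.Tau

open Vale.Agent.P092.H200 Vale.Agent.P092.H538 Vale.Agent.P092.H553 Vale.Agent.P092.H761
open Vale.Agent.P092.H515

section chain

variable {Γ 𝔾 J : Type} [Group Γ] [DecidableEq Γ] [Group 𝔾] [Fintype J] [DecidableEq J] {t : ℝ}
  {mass : 𝔾 → (Γ → ℝ) → ℝ} {Cpt : Set 𝔾 → Prop} {Ping : (p : ℕ) → (Fin p → 𝔾) → Prop}
  {r : ℕ} {gap : J → Γ → ℝ} {cl : J → Fin r} {m : ℕ} {b : Fin m → ℕ → 𝔾} {𝒦 : Fin m → Set 𝔾}

/-- the end of the chain -/
theorem ttn_end (h : SharpData t mass Cpt Ping) (hg : Gaps gap cl)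
    (hgeo : ∀ θ : Finset J, θ.Nonempty → (∀ i ∈ θ, ∀ j, cl i = cl j → j ∈ θ) → Geo gap θ)
    (hch : GChain Cpt Ping m b 𝒦) : TTn mass gap cl b m m := by
  have h0 : TTn mass gap cl b 0 0 := by
    refine ⟨t, ∅, h.pos, by simp, fun R => ⟨1, HS.one, ?_⟩⟩
    have e : (ind fun g : Γ => (∅ : Finset (Fin r)) ⊆ big gap cl R g) = fun _ => (1 : ℝ) := by
      funext g
      exact ind_pos (P := fun g : Γ => (∅ : Finset (Fin r)) ⊆ big gap cl R g)
        (Finset.empty_subset _)
    rw [e, h.one]
  have hTT : ∀ i, i ≤ m → TTn mass gap cl b i i := by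
    intro i
    induction i with
    | zero => intro _; exact h0
    | succ i ih =>
      intro hi
      exact ttn_step h hg hgeo hch (by omega) (ih (by omega))
  exact hTT m le_rfl

/-- **The chain fills classes of `P` only**: there are `m` classes of gaps in `P` which are
simultaneously unbounded with mass bounded below along the products of the chain. -/
theorem tau_fill (h : SharpData t mass Cpt Ping) (hg : Gaps gap cl)
    (hgeo : ∀ θ : Finset J, θ.Nonempty → (∀ i ∈ θ, ∀ j, cl i = cl j → j ∈ θ) → Geo gap θ)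
    (hch : GChain Cpt Ping m b 𝒦) {P : Finset (Fin r)}
    (ht : ∀ c : ℝ, 0 < c → ∃ R : ℝ, ∀ w, HS b m w →
      mass w (ind fun g => ¬ big gap cl R g ⊆ P) < c) :
    ∃ (c : ℝ) (Θ : Finset (Fin r)), 0 < c ∧ m ≤ Θ.card ∧ Θ ⊆ P ∧ ∀ R : ℝ, ∃ w, HS b m w ∧
      c ≤ mass w (ind fun g => Θ ⊆ big gap cl R g) := by
  classical
  obtain ⟨c, Θ, hc, hm, hT⟩ := ttn_end h hg hgeo hch
  refine ⟨c, Θ, hc, hm, ?_, hT⟩
  by_contra hP
  obtain ⟨R, hR⟩ := ht c hc
  obtain ⟨w, hw, h1⟩ := hT R
  have h2 := hR w hw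
  have h3 : mass w (ind fun g => Θ ⊆ big gap cl R g) ≤
      mass w (ind fun g => ¬ big gap cl R g ⊆ P) := by
    refine h.mono w _ _ 1 (fun g => ?_) (fun g => ?_) fun g => ?_
    · unfold ind
      split_ifs <;> simp
    · unfold ind
      split_ifs <;> simp
    · by_cases hg' : Θ ⊆ big gap cl R g
      · have h4 : ¬ big gap cl R g ⊆ P := fun h5 => hP (hg'.trans h5)
        rw [ind_pos (P := fun g => Θ ⊆ big gap cl R g) hg',
          ind_pos (P := fun g => ¬ big gap cl R g ⊆ P) h4]
      · rw [ind_neg (P := fun g => Θ ⊆ big gap cl R g) hg']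
        unfold ind
        split_ifs <;> simp
  linarith

/-- **The rank inequality for one coordinate.** -/
theorem tau_le (h : SharpData t mass Cpt Ping) (hg : Gaps gap cl)
    (hgeo : ∀ θ : Finset J, θ.Nonempty → (∀ i ∈ θ, ∀ j, cl i = cl j → j ∈ θ) → Geo gap θ)
    (hch : GChain Cpt Ping m b 𝒦) {P : Finset (Fin r)}
    (ht : ∀ c : ℝ, 0 < c → ∃ R : ℝ, ∀ w, HS b m w →
      mass w (ind fun g => ¬ big gap cl R g ⊆ P) < c) : m ≤ P.card := by
  obtain ⟨c, Θ, -, hm, hP, -⟩ := tau_fill h hg hgeo hch ht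
  exact hm.trans (Finset.card_le_card hP)

end chain

section count

variable {I : Type} [Fintype I] [DecidableEq I]

/-- **Counting**: `τ` is a bijection which preserves the ranks. -/
theorem tau_bij {N : I → ℕ} (hN : ∀ i, 0 < N i) {τ : I → I}
    (h : ∀ j, ∑ i ∈ Finset.univ.filter (fun i => τ i = j), N i ≤ N j) :
    Function.Bijective τ ∧ ∀ i, N (τ i) = N i := by
  have h1 : ∑ j, ∑ i ∈ Finset.univ.filter (fun i => τ i = j), N i = ∑ i, N i :=
    Finset.sum_fiberwise Finset.univ τ N
  have h2 : ∀ j ∈ (Finset.univ : Finset I),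
      ∑ i ∈ Finset.univ.filter (fun i => τ i = j), N i = N j :=
    (Finset.sum_eq_sum_iff_of_le fun j _ => h j).1 h1
  have hs : Function.Surjective τ := by
    intro j
    by_contra hj
    have h3 := h2 j (Finset.mem_univ j)
    have h4 : Finset.univ.filter (fun i => τ i = j) = ∅ := by
      rw [Finset.filter_eq_empty_iff]
      exact fun i _ hi => hj ⟨i, hi⟩
    rw [h4, Finset.sum_empty] at h3
    exact (hN j).ne h3
  have hb : Function.Bijective τ := Finite.surjective_iff_bijective.1 hs
  refine ⟨hb, fun i => ?_⟩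
  have h3 := h2 (τ i) (Finset.mem_univ _)
  have h4 : Finset.univ.filter (fun i' => τ i' = τ i) = {i} := by
    ext i'
    simp only [Finset.mem_filter, Finset.mem_univ, true_and, Finset.mem_singleton]
    exact ⟨fun h => hb.1 h, fun h => by rw [h]⟩
  rw [h4, Finset.sum_singleton] at h3
  exact h3.symm

/-- The same for a source family `N` and a target family `N'` over different index sets with the
same total rank. -/
theorem tau_bij' {I' : Type} [Fintype I'] [DecidableEq I'] {N : I → ℕ} {N' : I' → ℕ}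
    (hN : ∀ i, 0 < N i) (hN' : ∀ j, 0 < N' j) (hs : ∑ i, N i = ∑ j, N' j)
    (hc : Fintype.card I ≤ Fintype.card I') {τ : I → I'}
    (h : ∀ j, ∑ i ∈ Finset.univ.filter (fun i => τ i = j), N i ≤ N' j) :
    Function.Bijective τ ∧ ∀ i, N' (τ i) = N i := by
  have h1 : ∑ j, ∑ i ∈ Finset.univ.filter (fun i => τ i = j), N i = ∑ j, N' j :=
    (Finset.sum_fiberwise Finset.univ τ N).trans hs
  have h2 : ∀ j ∈ (Finset.univ : Finset I'),
      ∑ i ∈ Finset.univ.filter (fun i => τ i = j), N i = N' j :=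
    (Finset.sum_eq_sum_iff_of_le fun j _ => h j).1 h1
  have hsj : Function.Surjective τ := by
    intro j
    by_contra hj
    have h3 := h2 j (Finset.mem_univ j)
    have h4 : Finset.univ.filter (fun i => τ i = j) = ∅ := by
      rw [Finset.filter_eq_empty_iff]
      exact fun i _ hi => hj ⟨i, hi⟩
    rw [h4, Finset.sum_empty] at h3
    exact (hN' j).ne h3
  have hb : Function.Bijective τ := by
    rw [Fintype.bijective_iff_surjective_and_card]
    exact ⟨hsj, le_antisymm hc (Fintype.card_le_of_surjective τ hsj)⟩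
  refine ⟨hb, fun i => ?_⟩
  have h3 := h2 (τ i) (Finset.mem_univ _)
  have h4 : Finset.univ.filter (fun i' => τ i' = τ i) = {i} := by
    ext i'
    simp only [Finset.mem_filter, Finset.mem_univ, true_and, Finset.mem_singleton]
    exact ⟨fun h => hb.1 h, fun h => by rw [h]⟩
  rw [h4, Finset.sum_singleton] at h3
  exact h3.symm

end count

end Vale.Agent.P092.H584.Tau
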