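import Vale.Agent.P092.H584.TauC
import Vale.Agent.P092.H776.NG5
import Vale.Agent.P092.H776.NG4
import Vale.Agent.P092.H261.SharpFinal
import Vale.Agent.P092.SN.Defs

/-!
P092, TEAM N (helper584), products, block [P-TAU] (T3), geometry and glue.

* `bcart_gap_le`: the gaps of the bounded Cartan decomposition are bounded in terms of the norm.
* `gsys_nm`: the system of gauges of a jointly proper family `q j`, with gaps of the coordinate `j`
  bounded in terms of `nm (q j γ)`.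
* `tau_ineq`: if all the elements of the factors `i` with `τ i = j` are tight outside the
  coordinate `j`, then `∑_{τ i = j} N i ≤ N' j`.
* `tau_glue`: `τ` is a bijection and `N (τ i) = N i`.
* `tau_full`: the chain of the factor `i` makes all the gaps of the coordinate `τ i` large.
-/

set_option linter.all false

open Filter Topology Matrix

namespace Vale.Agent.P092.H584.Tau

open Vale.Agent.P092.H200 Vale.Agent.P092.H761
open Vale.Agent.P092.H538 (ind ind_pos ind_neg ind_nonneg)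
open Vale.Agent.P092.H515
open Vale.Agent.P092.H933 (BCart LocK)
open Vale.Agent.P092.H776.NG (nmx Dec)
open Vale.Agent.P092.H701 (HChain tor)
open Vale.Agent.P092.RC (GG PG YY)
open Vale.Agent.P092.H261 (PingT gchain_of_hchain)

/-! ### The gaps are bounded in terms of the norm -/

section gap

variable {n : ℕ} {k : Type} [NormedField k]

theorem bcart_gap_le (hn : 0 < n) {c : ℝ} (hc : 0 < c) (C R : ℝ) :
    ∃ R' : ℝ, ∀ (A : Matrix (Fin n) (Fin n) k) (x : Fin (n - 1) → ℝ), ‖A.det‖ = 1 →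
      BCart A x c C → nmx A ≤ R → ∀ j, x j ≤ R' := by
  obtain ⟨D, hD⟩ : ∃ D : ℝ, D = 2 * Real.log ((n.factorial : ℝ) * (max C 1) ^ n) := ⟨_, rfl⟩
  obtain ⟨M, hM⟩ : ∃ M : ℝ, M = max 0 (Real.log (n ^ 2 * (max C 1) ^ 2 * R)) := ⟨_, rfl⟩
  refine ⟨C + c * (M + (D + n * M)), fun A x hdet h hA j => ?_⟩
  obtain ⟨κ, κi, κ', κi', a, h1, h2, h3, h4, h5, h6, h7⟩ := h
  have hDec : Dec A a (max C 1) := ⟨κ, κi, κ', κi', h1, h2, fun i j =>
    ⟨(h3 i j).1.trans (le_max_left _ _), (h3 i j).2.1.trans (le_max_left _ _),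
      (h3 i j).2.2.1.trans (le_max_left _ _), (h3 i j).2.2.2.trans (le_max_left _ _)⟩, h4, h6⟩
  have hs := hDec.sum_log (le_max_right _ _) hdet
  obtain ⟨-, b, -⟩ := hDec.bounds (zero_le_one.trans (le_max_right _ _))
  have hM0 : 0 ≤ M := by rw [hM]; exact le_max_left _ _
  have hup : ∀ i, Real.log ‖a i‖ ≤ M := fun i => by
    have h8 : ‖a i‖ ≤ n ^ 2 * max C 1 ^ 2 * R :=
      (b i).trans (mul_le_mul_of_nonneg_left hA (by positivity))
    have := Real.log_le_log (norm_pos_iff.2 (h4 i)) h8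
    exact this.trans (by rw [hM]; exact le_max_right _ _)
  have hlow : ∀ i, -(D + n * M) ≤ Real.log ‖a i‖ := fun i => by
    have e1 : ∑ i, Real.log ‖a i‖ = Real.log ‖a i‖ +
        ∑ i ∈ Finset.univ.erase i, Real.log ‖a i‖ :=
      (Finset.add_sum_erase _ _ (Finset.mem_univ i)).symm
    have e2 : ∑ i ∈ Finset.univ.erase i, Real.log ‖a i‖ ≤ n * M := by
      refine (Finset.sum_le_sum fun i _ => hup i).trans ?_
      rw [Finset.sum_const, nsmul_eq_mul]
      refine mul_le_mul_of_nonneg_right ?_ hM0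
      have : (Finset.univ.erase i).card ≤ n := by
        rw [Finset.card_erase_of_mem (Finset.mem_univ i), Finset.card_univ, Fintype.card_fin]
        omega
      exact_mod_cast this
    have e3 := (abs_le.1 hs).1
    rw [← hD] at e3
    linarith
  have h8 := (abs_le.1 (h7 j)).2
  have h9 := hup ⟨j, by have := j.2; omega⟩
  have h10 := hlow ⟨(j : ℕ) + 1, by have := j.2; omega⟩
  have h11 : c * (Real.log ‖a ⟨j, by have := j.2; omega⟩‖ -
      Real.log ‖a ⟨(j : ℕ) + 1, by have := j.2; omega⟩‖) ≤ c * (M + (D + n * M)) :=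
    mul_le_mul_of_nonneg_left (by linarith) hc.le
  linarith

end gap

/-! ### The system of gauges -/

section sys

variable {Γ I : Type} [Group Γ] [Fintype I] [Nonempty I] {N : I → ℕ} {k : I → Type}
  [∀ i, NontriviallyNormedField (k i)] [∀ i, ProperSpace (k i)]

theorem gsys_nm (hk : ∀ i, LocK (k i)) (q : ∀ i, Γ → GG (k i) (N i))
    (hq : ∀ i, SN.PH (q i)) (disc : ∀ C : ℝ, {γ : Γ | ∀ i, SN.nm (q i γ) ≤ C}.Finite) :
    ∃ (gap : (Σ i, Fin (N i)) → Γ → ℝ) (w : Γ → ℝ), GSys gap w ∧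
      (∀ R : ℝ, {γ | w γ ≤ R}.Finite) ∧
      ∀ i (r : ℝ), ∃ r' : ℝ, ∀ γ, SN.nm (q i γ) ≤ r → ∀ a, gap ⟨i, a⟩ γ ≤ r' := by
  have hn0 : ∀ i, 0 < N i + 1 := fun i => Nat.succ_pos _
  choose gap w c C hc hs hw hB using fun i => H776.NG.gsys_ph (hk i) (hn0 i) (q i) (hq i)
  refine ⟨fun j g => gap j.1 j.2 g, _, GSys.pi hs,
    H515.fin_sum (fun i => (hs i).pos) fun R => ?_, fun i r => ?_⟩
  · choose R' hR' using fun i => hw i R
    refine (disc (∑ i, |R' i|)).subset fun γ hγ i => ?_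
    refine H776.NG.nmx_le (Finset.sum_nonneg fun i _ => abs_nonneg _) fun a b => ?_
    exact ((hR' i γ (hγ i) a b).trans (le_abs_self _)).trans
      (Finset.single_le_sum (f := fun i => |R' i|) (fun i _ => abs_nonneg _) (Finset.mem_univ i))
  · obtain ⟨r', hr'⟩ := bcart_gap_le (k := k i) (hn0 i) (hc i) (C i) r
    exact ⟨r', fun γ hγ a => hr' (q i γ).1 (fun j => gap i j γ) (by rw [(q i γ).2, norm_one])
      (hB i γ) hγ a⟩

end sys

/-! ### Tight outside one coordinate -/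

section glue

variable {I I' : Type} [Fintype I] [DecidableEq I] [Fintype I'] [DecidableEq I']
  {k : I → Type} [∀ i, NontriviallyNormedField (k i)] [∀ i, ProperSpace (k i)]
  {k' : I' → Type} [∀ j, NontriviallyNormedField (k' j)] [∀ j, ProperSpace (k' j)]
  {N : I → ℕ} {N' : I' → ℕ}
  {E : Type} [Group E] [TopologicalSpace E] [MeasurableSpace E] [BorelSpace E]
  {Γ : Type} [Group Γ] [DecidableEq Γ] {t : ℝ} {mass : E → (Γ → ℝ) → ℝ}

/-- the classes of the coordinate `j` -/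
def PJ {r : ℕ} (cl : (Σ j, Fin (N' j)) → Fin r) (j : I') : Finset (Fin r) :=
  Finset.univ.image fun a : Fin (N' j) => cl ⟨j, a⟩

theorem card_PJ_le {r : ℕ} (cl : (Σ j, Fin (N' j)) → Fin r) (j : I') :
    (PJ cl j).card ≤ N' j := by
  refine Finset.card_image_le.trans ?_
  rw [Finset.card_univ, Fintype.card_fin]

/-- a class outside the coordinate `j` is large only if another coordinate is large -/
theorem big_sub {gap : (Σ j, Fin (N' j)) → Γ → ℝ} {r₀ : ℕ} (cl : (Σ j, Fin (N' j)) → Fin r₀)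
    (j : I') {q : ∀ j, Γ → GG (k' j) (N' j)}
    (hup : ∀ i (r : ℝ), ∃ r' : ℝ, ∀ γ, SN.nm (q i γ) ≤ r → ∀ a, gap ⟨i, a⟩ γ ≤ r') (r : ℝ) :
    ∃ R : ℝ, ∀ γ, ¬ big gap cl R γ ⊆ PJ cl j → ∃ j', j' ≠ j ∧ r < SN.nm (q j' γ) := by
  choose r' hr' using fun i => hup i r
  refine ⟨∑ i, |r' i| + 1, fun γ hγ => ?_⟩
  by_contra hcon
  push Not at hcon
  refine hγ fun x hx => ?_
  obtain ⟨⟨i, a⟩, h1, h2⟩ := mem_big.1 hx
  by_cases hi : i = j
  · subst hi
    exact Finset.mem_image.2 ⟨a, Finset.mem_univ _, h1⟩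
  · exfalso
    have h3 := hr' i γ (hcon i hi) a
    have h4 : r' i ≤ ∑ i, |r' i| := (le_abs_self _).trans
      (Finset.single_le_sum (f := fun i => |r' i|) (fun i _ => abs_nonneg _) (Finset.mem_univ i))
    linarith

/-- the products of a chain lie in a subgroup which contains its directions -/
theorem hs_mem {m : ℕ} {b : Fin m → ℕ → E} {S : Subgroup E} (hb : ∀ x N, b x N ∈ S) {j : ℕ}
    {h : E} (hh : HS b j h) : h ∈ S := by
  induction hh with
  | one => exact one_mem _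
  | step hj M hh ih => exact mul_mem ih (hb _ _)

/-- **The chain of a subgroup which is tight outside the coordinate `j`**: it has length at most
`N' j`, and it fills only gaps of the coordinate `j`. -/
theorem tau_sub (hd : SharpData t mass (fun K : Set E => IsCompact K) (PingT E))
    {gap : (Σ j, Fin (N' j)) → Γ → ℝ} {w : Γ → ℝ} (hs : GSys gap w)
    (hfin : ∀ R : ℝ, {γ | w γ ≤ R}.Finite) {q : ∀ j, Γ → GG (k' j) (N' j)}
    (hup : ∀ i (r : ℝ), ∃ r' : ℝ, ∀ γ, SN.nm (q i γ) ≤ r → ∀ a, gap ⟨i, a⟩ γ ≤ r')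
    {m : ℕ} (C : HChain E m) {S : Subgroup E} (hC : ∀ x M, C.b x M ∈ S) {j : I'}
    (ht : ∀ ε : ℝ, 0 < ε → ∃ r : ℝ, ∀ u ∈ S,
      mass u (ind fun γ => ∃ j', j' ≠ j ∧ r < SN.nm (q j' γ)) ≤ ε) :
    m ≤ N' j ∧ ∃ (c : ℝ) (Θ : Finset (Fin (N' j))), 0 < c ∧ m ≤ Θ.card ∧
      ∀ R : ℝ, ∃ h, HS C.b m h ∧ c ≤ mass h (ind fun γ => ∀ a ∈ Θ, R ≤ gap ⟨j, a⟩ γ) := by
  classical
  obtain ⟨cl, -⟩ : ∃ cl : (Σ j, Fin (N' j)) ≃ Fin (Fintype.card (Σ j, Fin (N' j))), True :=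
    ⟨Fintype.equivFin _, trivial⟩
  have hg := hs.gaps hfin (fun x => cl x)
    (fun R => ⟨R, fun i j hij g hg => by rw [← cl.injective hij]; exact hg⟩)
  have hP : ∀ c : ℝ, 0 < c → ∃ R : ℝ, ∀ h, HS C.b m h →
      mass h (ind fun g => ¬ big gap (fun x => cl x) R g ⊆ PJ (fun x => cl x) j) < c := by
    intro c hc
    obtain ⟨r, hr⟩ := ht (c / 2) (by linarith)
    obtain ⟨R, hR⟩ := big_sub (fun x => cl x) j hup r
    refine ⟨R, fun h hh => ?_⟩
    have h1 := hd.ind_mono h (P := fun g => ¬ big gap (fun x => cl x) R g ⊆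
      PJ (fun x => cl x) j) (Q := fun γ => ∃ j', j' ≠ j ∧ r < SN.nm (q j' γ)) hR
    have h2 := hr h (hs_mem hC hh)
    linarith
  obtain ⟨c, Θ, hc, hm, hΘ, hT⟩ := tau_fill hd hg (fun θ _ _ => hs.geo' hfin θ)
    (gchain_of_hchain C) hP
  refine ⟨hm.trans ((Finset.card_le_card hΘ).trans (card_PJ_le _ j)), c,
    Finset.univ.filter (fun a : Fin (N' j) => cl ⟨j, a⟩ ∈ Θ), hc, ?_, fun R => ?_⟩
  · refine hm.trans ?_
    have h1 : Θ ⊆ (Finset.univ.filter (fun a : Fin (N' j) => cl ⟨j, a⟩ ∈ Θ)).image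
        (fun a => cl ⟨j, a⟩) := by
      intro x hx
      obtain ⟨a, -, ha⟩ := Finset.mem_image.1 (hΘ hx)
      refine Finset.mem_image.2 ⟨a, ?_, ha⟩
      rw [Finset.mem_filter]
      refine ⟨Finset.mem_univ _, ?_⟩
      have ha' : cl ⟨j, a⟩ = x := ha
      rw [ha']
      exact hx
    exact (Finset.card_le_card h1).trans Finset.card_image_le
  · obtain ⟨h, h1, h2⟩ := hT R
    refine ⟨h, h1, h2.trans (hd.ind_mono h fun γ hγ a ha => ?_)⟩
    rw [Finset.mem_filter] at ha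
    obtain ⟨x, hx1, hx2⟩ := mem_big.1 (hγ ha.2)
    have h3 : x = ⟨j, a⟩ := cl.injective hx1
    rw [h3] at hx2
    exact hx2

/-- A chain of full length fills all the gaps of the coordinate `j`. -/
theorem tau_full (hd : SharpData t mass (fun K : Set E => IsCompact K) (PingT E))
    {gap : (Σ j, Fin (N' j)) → Γ → ℝ} {w : Γ → ℝ} (hs : GSys gap w)
    (hfin : ∀ R : ℝ, {γ | w γ ≤ R}.Finite) {q : ∀ j, Γ → GG (k' j) (N' j)}
    (hup : ∀ i (r : ℝ), ∃ r' : ℝ, ∀ γ, SN.nm (q i γ) ≤ r → ∀ a, gap ⟨i, a⟩ γ ≤ r')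
    {m : ℕ} (C : HChain E m) {S : Subgroup E} (hC : ∀ x M, C.b x M ∈ S) {j : I'}
    (hm : N' j ≤ m) (ht : ∀ ε : ℝ, 0 < ε → ∃ r : ℝ, ∀ u ∈ S,
      mass u (ind fun γ => ∃ j', j' ≠ j ∧ r < SN.nm (q j' γ)) ≤ ε) :
    ∃ c : ℝ, 0 < c ∧ ∀ R : ℝ, ∃ h, HS C.b m h ∧ h ∈ S ∧
      c ≤ mass h (ind fun γ => ∀ a, R ≤ gap ⟨j, a⟩ γ) := by
  obtain ⟨-, c, Θ, hc, h1, h2⟩ := tau_sub hd hs hfin hup C hC ht
  have h3 : Θ = Finset.univ := Finset.eq_univ_of_card Θ (by
    rw [Fintype.card_fin]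
    exact le_antisymm (by simpa using Finset.card_le_univ Θ) (hm.trans h1))
  refine ⟨c, hc, fun R => ?_⟩
  obtain ⟨h, h4, h5⟩ := h2 R
  refine ⟨h, h4, hs_mem hC h4, h5.trans (hd.ind_mono h fun γ hγ a => hγ a ?_)⟩
  rw [h3]
  exact Finset.mem_univ a

/-- **The rank inequality of one coordinate of the target.** -/
theorem tau_ineq (hd : SharpData t mass (fun K : Set E => IsCompact K) (PingT E))
    (hN : ∀ i, 0 < N i) (ι : ∀ i, GG (k i) (N i) →* E) (a : ∀ i, E →* PG (k i) (N i + 1))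
    (hι : ∀ i, Continuous (ι i)) (ha : ∀ i, Continuous (a i))
    (hcomp : ∀ i g (x : YY (k i) (N i)), a i (ι i g) • x = g • x)
    (hcomm : ∀ i j, i ≠ j → ∀ g h, Commute (ι i g) (ι j h))
    {gap : (Σ j, Fin (N' j)) → Γ → ℝ} {w : Γ → ℝ} (hs : GSys gap w)
    (hfin : ∀ R : ℝ, {γ | w γ ≤ R}.Finite) {q : ∀ j, Γ → GG (k' j) (N' j)}
    (hup : ∀ i (r : ℝ), ∃ r' : ℝ, ∀ γ, SN.nm (q i γ) ≤ r → ∀ a, gap ⟨i, a⟩ γ ≤ r')
    {T : Finset I} {j : I'}
    (ht : ∀ ε : ℝ, 0 < ε → ∃ r : ℝ, ∀ u ∈ Subgroup.closure (⋃ i ∈ T, Set.range (ι i)),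
      mass u (ind fun γ => ∃ j', j' ≠ j ∧ r < SN.nm (q j' γ)) ≤ ε) :
    ∑ i ∈ T, N i ≤ N' j := by
  classical
  rcases T.eq_empty_or_nonempty with hT | ⟨i₀, hi₀⟩
  · rw [hT, Finset.sum_empty]
    exact Nat.zero_le _
  obtain ⟨w, hw1⟩ : ∃ w : ∀ i : T, k i, ∀ i, 1 < ‖w i‖ := by
    choose w hw using fun i : T => NormedField.exists_one_lt_norm (k i)
    exact ⟨w, hw⟩
  have hw0 : ∀ i, w i ≠ 0 := fun i h0 => by
    have := hw1 i
    rw [h0, norm_zero] at this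
    exact absurd this (not_lt.2 zero_le_one)
  obtain ⟨e, -, ⟨C, hC⟩, -⟩ := H776.NE.exists_chE (I := T) (k := fun i => k i)
    (n := fun i => N i) (fun i => hN i) (fun i => ι i) (fun i => a i) (fun i => hι i)
    (fun i => ha i) (fun i => hcomp i) (fun i j hij => hcomm i j fun h => hij (Subtype.ext h))
    w hw1 hw0 ⟨i₀, hi₀⟩
  have hmem : ∀ x M, C.b x M ∈ Subgroup.closure (⋃ i ∈ T, Set.range (ι i)) := by
    intro x M
    rw [hC]
    refine pow_mem (Subgroup.subset_closure ?_) M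
    rw [Set.mem_iUnion₂]
    exact ⟨(e x).1, (e x).1.2, ⟨_, rfl⟩⟩
  have h1 := (tau_sub hd hs hfin hup C hmem ht).1
  rwa [Finset.sum_coe_sort T N] at h1

/-- **T3, one family**: if all the elements of the factors over `j` are tight outside the
coordinate `j`, for all `j`, then `τ` is a bijection and preserves the ranks. -/
theorem tau_glue {k' : I → Type} [∀ j, NontriviallyNormedField (k' j)] [∀ j, ProperSpace (k' j)]
    (hd : SharpData t mass (fun K : Set E => IsCompact K) (PingT E))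
    (hk' : ∀ j, LocK (k' j)) (hN : ∀ i, 0 < N i) (ι : ∀ i, GG (k i) (N i) →* E)
    (a : ∀ i, E →* PG (k i) (N i + 1)) (hι : ∀ i, Continuous (ι i)) (ha : ∀ i, Continuous (a i))
    (hcomp : ∀ i g (x : YY (k i) (N i)), a i (ι i g) • x = g • x)
    (hcomm : ∀ i j, i ≠ j → ∀ g h, Commute (ι i g) (ι j h))
    (q : ∀ j, Γ → GG (k' j) (N j)) (hq : ∀ j, SN.PH (q j))
    (disc : ∀ C : ℝ, {γ : Γ | ∀ j, SN.nm (q j γ) ≤ C}.Finite) {τ : I → I}
    (ht : ∀ j, ∀ ε : ℝ, 0 < ε → ∃ r : ℝ,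
      ∀ u ∈ Subgroup.closure (⋃ i ∈ {i | τ i = j}, Set.range (ι i)),
        mass u (ind fun γ => ∃ j', j' ≠ j ∧ r < SN.nm (q j' γ)) ≤ ε) :
    Function.Bijective τ ∧ ∀ i, N (τ i) = N i := by
  rcases isEmpty_or_nonempty I with hI | hI
  · exact ⟨⟨fun i => hI.elim i, fun i => hI.elim i⟩, fun i => hI.elim i⟩
  obtain ⟨gap, w, hs, hfin, hup⟩ := gsys_nm hk' q hq disc
  refine tau_bij hN fun j => tau_ineq hd hN ι a hι ha hcomp hcomm hs hfin hup ?_
  have e : (⋃ i ∈ Finset.univ.filter (fun i => τ i = j), Set.range (ι i)) =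
      ⋃ i ∈ {i | τ i = j}, Set.range (ι i) := by
    ext x
    simp
  rw [e]
  exact ht j

end glue

end Vale.Agent.P092.H584.Tau
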