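import Vale.Agent.P092.H584.X1
import Vale.Agent.P092.SNP.Blocks

/-!
P092, TEAM N (helper584), products, block [P-CROSS], part (X1), in the letters of `SNP/Blocks`.
-/

set_option linter.all false

open MeasureTheory

namespace Vale.Agent.P092.H584.X

/-- **(X1)** -/
theorem x1Stmt {k k' : Type} [NontriviallyNormedField k] [ProperSpace k]
    [NontriviallyNormedField k'] [ProperSpace k'] [MeasurableSpace k] [BorelSpace k]
    {μ : Measure k} [IsFiniteMeasureOnCompacts μ] [μ.IsOpenPosMeasure]
    (hk' : Vale.Agent.P092.H933.LocK k') : SNP.X1Stmt k k' μ := by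
  intro N N' E Γ K _ _ _ _ _ _ w ι a a' π lam W Ω m q Z Ec F q' E' h _ hq' cm pc cov c M hc u v f huv
  exact x1 hk' h hq' cm pc cov c M u f v hc huv

end Vale.Agent.P092.H584.X
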